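import Mathlib.Analysis.Calculus.ContDiff.Defs

/-!
# P219: global flows of vector fields
-/

open scoped ContDiff

namespace P219G

/-- `Ψ` is the (global) flow of the vector field `F`. -/
structure IsFlow {X : Type*} [NormedAddCommGroup X] [NormedSpace ℝ X] (F : X → X)
    (Ψ : ℝ → X → X) : Prop where
  zero : ∀ z, Ψ 0 z = z
  deriv : ∀ t z, HasDerivAt (fun s => Ψ s z) (F (Ψ t z)) t

end P219G
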