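import Vale.Agent.Lib.P219.Defs
import Vale.Agent.Lib.P219.Geo.FlowDefs

/-!
# P219: Riemannian metrics on `ℝ^n`: basic definitions

All notions are the classical ones, written in the global coordinates of `ℝ^n`.
-/

open scoped ContDiff
open Vale.Agent.Lib.P219 (Ev)

namespace P219G

variable {n : ℕ}

/-- `g` is a smooth Riemannian metric on `ℝ^n`. -/
structure IsMetric (g : Ev n → Ev n →L[ℝ] Ev n →L[ℝ] ℝ) : Prop where
  smooth : ContDiff ℝ ∞ g
  symm : ∀ p, ∀ u v : Ev n, g p u v = g p v u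
  pos : ∀ p, ∀ u : Ev n, u ≠ 0 → 0 < g p u u

/-- `Γ` is the Levi-Civita connection of `g`, i.e. `∇_u V = D_u V + Γ (u, V)` is torsion free and
metric. (It exists and is unique.) -/
structure IsLeviCivita (g : Ev n → Ev n →L[ℝ] Ev n →L[ℝ] ℝ)
    (Γ : Ev n → Ev n →L[ℝ] Ev n →L[ℝ] Ev n) : Prop where
  smooth : ContDiff ℝ ∞ Γ
  torsion_free : ∀ p, ∀ u v : Ev n, Γ p u v = Γ p v u
  metric : ∀ p, ∀ u v w : Ev n,
    fderiv ℝ g p u v w = g p (Γ p u v) w + g p v (Γ p u w)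

/-- The curvature tensor `R (u, v) w` of the connection `∇_u V = D_u V + Γ (u, V)`. -/
noncomputable def curvatureTensor (Γ : Ev n → Ev n →L[ℝ] Ev n →L[ℝ] Ev n)
    (p u v w : Ev n) : Ev n :=
  fderiv ℝ Γ p u v w - fderiv ℝ Γ p v u w + Γ p u (Γ p v w) - Γ p v (Γ p u w)

/-- The sectional curvature of the two-plane spanned by `u` and `v` at `p`. -/
noncomputable def sectionalCurvature (g : Ev n → Ev n →L[ℝ] Ev n →L[ℝ] ℝ)
    (Γ : Ev n → Ev n →L[ℝ] Ev n →L[ℝ] Ev n) (p u v : Ev n) : ℝ :=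
  g p (curvatureTensor Γ p u v v) u / (g p u u * g p v v - g p u v ^ 2)

/-- Nonpositive sectional curvature. -/
def IsNonpos (g : Ev n → Ev n →L[ℝ] Ev n →L[ℝ] ℝ)
    (Γ : Ev n → Ev n →L[ℝ] Ev n →L[ℝ] Ev n) : Prop :=
  ∀ p, ∀ u v : Ev n, LinearIndependent ℝ ![u, v] → sectionalCurvature g Γ p u v ≤ 0

/-- Completeness: every geodesic (solution of `γ'' + Γ (γ', γ') = 0`) with prescribed
initial point and velocity is defined for all times. -/
def IsComplete (Γ : Ev n → Ev n →L[ℝ] Ev n →L[ℝ] Ev n) : Prop :=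
  ∀ p, ∀ v : Ev n, ∃ c : ℝ → Ev n, c 0 = p ∧ deriv c 0 = v ∧ ∀ t : ℝ,
    DifferentiableAt ℝ c t ∧ HasDerivAt (deriv c) (-(Γ (c t) (deriv c t) (deriv c t))) t

/-- The geodesic vector field. -/
noncomputable def spray (Γ : Ev n → Ev n →L[ℝ] Ev n →L[ℝ] Ev n) (z : Ev n × Ev n) : Ev n × Ev n :=
  (z.2, -(Γ z.1 z.2 z.2))

/-- The exponential map of a geodesic flow (in coordinates). -/
noncomputable def ex (Ψ : ℝ → Ev n × Ev n → Ev n × Ev n) (x v : Ev n) : Ev n := (Ψ 1 (x, v)).1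

/-- The velocity at time one. -/
noncomputable def ve (Ψ : ℝ → Ev n × Ev n → Ev n × Ev n) (x v : Ev n) : Ev n := (Ψ 1 (x, v)).2

/-- The derivative of the exponential map in the vector variable. -/
noncomputable def Dex (Ψ : ℝ → Ev n × Ev n → Ev n × Ev n) (x v : Ev n) : Ev n →L[ℝ] Ev n :=
  fderiv ℝ (fun w => ex Ψ x w) v

end P219G
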