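import Vale.Agent.Lib.P219.Geo.Symm

/-!
# P219: convexity of metric balls
-/

open scoped ContDiff
open Vale.Agent.Lib.P219 (Ev)

namespace P219G

variable {n : ℕ} {g : Ev n → Ev n →L[ℝ] Ev n →L[ℝ] ℝ}
  {Γ : Ev n → Ev n →L[ℝ] Ev n →L[ℝ] Ev n} {Ψ : ℝ → Ev n × Ev n → Ev n × Ev n}

private theorem metric_nonneg (hg : IsMetric g) (p u : Ev n) : 0 ≤ g p u u := by
  by_cases hu : u = 0
  · rw [hu]
    simp
  · exact (hg.pos p u hu).le

/-- Hessian comparison: `g(DJ, J)(1) ≥ g(J, J)(1)` for Jacobi fields with `J(0) = 0`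
(`scalar_deriv`, `jacobi_data`). -/
theorem jacobi_one (hg : IsMetric g) (hΓ : IsLeviCivita g Γ) (hK : IsNonpos g Γ)
    (h : IsFlow (spray Γ) Ψ) (z : Ev n × Ev n) (b : Ev n) :
    g (Ψ 1 z).1 (Jf Ψ z (0, b) 1) (Jf Ψ z (0, b) 1) ≤
      g (Ψ 1 z).1 (DJf Γ Ψ z (0, b) 1) (Jf Ψ z (0, b) 1) := by
  obtain ⟨p1, _, hh, hp, hk⟩ := jacobi_data hg hΓ hK h z b
  refine scalar_deriv (fun s => g (Ψ s z).1 (Jf Ψ z (0, b) s) (Jf Ψ z (0, b) s))
    (fun s => g (Ψ s z).1 (DJf Γ Ψ z (0, b) s) (Jf Ψ z (0, b) s))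
    (fun s => g (Ψ s z).1 (DJf Γ Ψ z (0, b) s) (DJf Γ Ψ z (0, b) s)) p1 hh hp hk ?_ ?_ ?_ ?_
  · have h0 : Jf Ψ z (0, b) 0 = 0 := by
      have h1 := Jf_eq hΓ h z.1 z.2 b 0
      rw [zero_smul ℝ (Dex Ψ z.1 ((0 : ℝ) • z.2) b)] at h1
      exact h1
    simp only [h0]
    simp
  · intro t
    exact metric_nonneg hg _ _
  · intro t
    exact metric_nonneg hg _ _
  · intro t
    have h1 := metric_cs hg (Ψ t z).1 (DJf Γ Ψ z (0, b) t) (Jf Ψ z (0, b) t)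
    exact h1.trans_eq (mul_comm _ _)

private theorem ex_smul (hΓ : IsLeviCivita g Γ) (h : IsFlow (spray Γ) Ψ) (x w : Ev n) (s : ℝ) :
    ex Ψ x (s • w) = (Ψ s (x, w)).1 := by
  have h1 := flow_smul hΓ.smooth h 1 s x w
  rw [mul_one] at h1
  simp only [ex, h1]

/-- the derivative of the end velocity along the geodesic -/
private theorem deriv_data (hg : IsMetric g) (hΓ : IsLeviCivita g Γ) (hK : IsNonpos g Γ)
    (h : IsFlow (spray Γ) Ψ) (o x w : Ev n) (t : ℝ) :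
    ∃ b : Ev n, Jf Ψ (o, lg Ψ o (Ψ t (x, w)).1) (0, b) 1 = (Ψ t (x, w)).2 ∧
      HasDerivAt (fun s => -(lg Ψ (Ψ s (x, w)).1 o))
        (DJf Γ Ψ (o, lg Ψ o (Ψ t (x, w)).1) (0, b) 1
          - Γ (Ψ t (x, w)).1 (Ψ t (x, w)).2 (-(lg Ψ (Ψ t (x, w)).1 o))) t := by
  have hγ := flow_vel h t (x, w)
  -- the derivative of `v s = lg o (γ s)`
  have hlg : Differentiable ℝ (fun p : Ev n × Ev n => lg Ψ p.1 p.2) :=
    (lg_contDiff hg hΓ hK h).differentiable (by simp)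
  have hpair : HasDerivAt (fun s => ((o, (Ψ s (x, w)).1) : Ev n × Ev n))
      ((0 : Ev n), (Ψ t (x, w)).2) t := (hasDerivAt_const t o).prodMk hγ
  have hv := (hlg (o, (Ψ t (x, w)).1)).hasFDerivAt.comp_hasDerivAt t hpair
  set b : Ev n := fderiv ℝ (fun p : Ev n × Ev n => lg Ψ p.1 p.2) (o, (Ψ t (x, w)).1)
    ((0 : Ev n), (Ψ t (x, w)).2) with hb
  have hv' : HasDerivAt (fun s => lg Ψ o (Ψ s (x, w)).1) b t := hv
  have hov : HasDerivAt (fun s => ((o, lg Ψ o (Ψ s (x, w)).1) : Ev n × Ev n))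
      ((0 : Ev n), b) t := (hasDerivAt_const t o).prodMk hv'
  have hF1 : ContDiff ℝ 1 (spray Γ) := (spray_contDiff hΓ.smooth).of_le (by simp)
  have hΨ1 : HasFDerivAt (Ψ 1) (fderiv ℝ (Ψ 1) (o, lg Ψ o (Ψ t (x, w)).1))
      (o, lg Ψ o (Ψ t (x, w)).1) :=
    (IsFlow.differentiableAt hF1 h (o, lg Ψ o (Ψ t (x, w)).1) 1).hasFDerivAt
  have hcomp : HasDerivAt (fun s => Ψ 1 (o, lg Ψ o (Ψ s (x, w)).1))
      (fderiv ℝ (Ψ 1) (o, lg Ψ o (Ψ t (x, w)).1) (0, b)) t :=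
    hΨ1.comp_hasDerivAt t hov
  have hc1 : HasDerivAt (fun s => (Ψ 1 (o, lg Ψ o (Ψ s (x, w)).1)).1)
      (fderiv ℝ (Ψ 1) (o, lg Ψ o (Ψ t (x, w)).1) (0, b)).1 t := hcomp.fst
  have hc2 : HasDerivAt (fun s => (Ψ 1 (o, lg Ψ o (Ψ s (x, w)).1)).2)
      (fderiv ℝ (Ψ 1) (o, lg Ψ o (Ψ t (x, w)).1) (0, b)).2 t := hcomp.snd
  have e1 : (fun s => (Ψ 1 (o, lg Ψ o (Ψ s (x, w)).1)).1) = fun s => (Ψ s (x, w)).1 := by
    funext s
    exact ex_lg hg hΓ hK h o (Ψ s (x, w)).1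
  have e2 : (fun s => (Ψ 1 (o, lg Ψ o (Ψ s (x, w)).1)).2) =
      fun s => -(lg Ψ (Ψ s (x, w)).1 o) := by
    funext s
    exact ve_lg hg hΓ hK h o (Ψ s (x, w)).1
  rw [e1] at hc1
  rw [e2] at hc2
  have hJ : Jf Ψ (o, lg Ψ o (Ψ t (x, w)).1) (0, b) 1 = (Ψ t (x, w)).2 := hc1.unique hγ
  refine ⟨b, hJ, ?_⟩
  have e3 : DJf Γ Ψ (o, lg Ψ o (Ψ t (x, w)).1) (0, b) 1
      - Γ (Ψ t (x, w)).1 (Ψ t (x, w)).2 (-(lg Ψ (Ψ t (x, w)).1 o)) =
      (fderiv ℝ (Ψ 1) (o, lg Ψ o (Ψ t (x, w)).1) (0, b)).2 := by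
    have f1 : (Ψ 1 (o, lg Ψ o (Ψ t (x, w)).1)).1 = (Ψ t (x, w)).1 :=
      ex_lg hg hΓ hK h o (Ψ t (x, w)).1
    have f2 : (Ψ 1 (o, lg Ψ o (Ψ t (x, w)).1)).2 = -(lg Ψ (Ψ t (x, w)).1 o) :=
      ve_lg hg hΓ hK h o (Ψ t (x, w)).1
    rw [DJf, hJ, f1, f2, hΓ.torsion_free (Ψ t (x, w)).1 (-(lg Ψ (Ψ t (x, w)).1 o))]
    abel
  rw [e3]
  exact hc2

/-- The squared distance to `o` is convex along geodesics. Proof: let `γ(s) = ex x (s w)`, so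
`(γ, γ')(s) = Ψ s (x, w)`, `F(s) = hd o γ(s)`. By `hasFDerivAt_hd`, `F'(s) = g_γ(U, γ')` with
`U(s) = - lg γ(s) o = ve o (v s)`, `v s = lg o γ(s)`. Moreover
`U' = (D(Ψ 1)(o, v) (0, v')).2` and `(D(Ψ 1)(o, v) (0, v')).1 = Dex o v v' = γ'`, so the covariant
derivative `U' + Γ(γ', U)` is `DJf (o, v) (0, v') 1` and `Jf (o, v) (0, v') 1 = γ'`. Since
`γ'' = -Γ(γ',γ')`, `hasDerivAt_inner` (the version along the geodesic `γ`) gives
`F'' = g(DJf, Jf) ≥ g(γ', γ') ≥ 0` by `jacobi_one`. -/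
theorem convexOn_hd (hg : IsMetric g) (hΓ : IsLeviCivita g Γ) (hK : IsNonpos g Γ)
    (h : IsFlow (spray Γ) Ψ) (o x w : Ev n) :
    ConvexOn ℝ Set.univ (fun s : ℝ => hd g Ψ o (ex Ψ x (s • w))) := by
  have e : (fun s : ℝ => hd g Ψ o (ex Ψ x (s • w))) =
      fun s : ℝ => hd g Ψ o (Ψ s (x, w)).1 := by
    funext s
    rw [ex_smul hΓ h]
  rw [e]
  -- the first derivative
  have h1 : ∀ t : ℝ, HasDerivAt (fun s : ℝ => hd g Ψ o (Ψ s (x, w)).1)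
      (g (Ψ t (x, w)).1 (-(lg Ψ (Ψ t (x, w)).1 o)) (Ψ t (x, w)).2) t := by
    intro t
    have h2 := (hasFDerivAt_hd hg hΓ hK h o (Ψ t (x, w)).1).comp_hasDerivAt t
      (flow_vel h t (x, w))
    have h3 : g (Ψ t (x, w)).1 (-(lg Ψ (Ψ t (x, w)).1 o)) (Ψ t (x, w)).2 =
        (-(g (Ψ t (x, w)).1 (lg Ψ (Ψ t (x, w)).1 o))) (Ψ t (x, w)).2 := by
      rw [map_neg]
    rw [h3]
    exact h2
  -- the second derivative
  choose b hbJ hbU using deriv_data hg hΓ hK h o x w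
  have h2 : ∀ t : ℝ, HasDerivAt
      (fun s : ℝ => g (Ψ s (x, w)).1 (-(lg Ψ (Ψ s (x, w)).1 o)) (Ψ s (x, w)).2)
      (g (Ψ t (x, w)).1 (DJf Γ Ψ (o, lg Ψ o (Ψ t (x, w)).1) (0, b t) 1) (Ψ t (x, w)).2) t := by
    intro t
    have h3 := hasDerivAt_inner hg hΓ h (x, w) (fun s => -(lg Ψ (Ψ s (x, w)).1 o))
      (fun s => (Ψ s (x, w)).2) (DJf Γ Ψ (o, lg Ψ o (Ψ t (x, w)).1) (0, b t) 1) 0 t (hbU t)
      (by
        rw [zero_sub]
        exact flow_acc h t (x, w))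
    rw [map_zero, add_zero] at h3
    exact h3
  refine convexOn_of_hasDerivWithinAt2_nonneg convex_univ
    (fun t _ => (h1 t).continuousAt.continuousWithinAt)
    (fun t _ => (h1 t).hasDerivWithinAt) (fun t _ => (h2 t).hasDerivWithinAt) ?_
  intro t _
  have h3 := jacobi_one hg hΓ hK h (o, lg Ψ o (Ψ t (x, w)).1) (b t)
  have f1 : (Ψ 1 (o, lg Ψ o (Ψ t (x, w)).1)).1 = (Ψ t (x, w)).1 :=
    ex_lg hg hΓ hK h o (Ψ t (x, w)).1
  rw [hbJ t, f1] at h3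
  exact (metric_nonneg hg _ _).trans h3

private theorem hd_continuous (hg : IsMetric g) (hΓ : IsLeviCivita g Γ) (hK : IsNonpos g Γ)
    (h : IsFlow (spray Γ) Ψ) : Continuous (fun y => hd g Ψ 0 y) := by
  have hlg : Continuous (fun p : Ev n × Ev n => lg Ψ p.1 p.2) :=
    (lg_contDiff hg hΓ hK h).continuous
  have h1 : Continuous (fun y : Ev n => lg Ψ 0 y) :=
    hlg.comp (continuous_const.prodMk continuous_id)
  have h2 : Continuous (fun y : Ev n => g 0 (lg Ψ 0 y) (lg Ψ 0 y)) :=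
    ((g 0).continuous.comp h1).clm_apply h1
  exact h2.div_const 2

/-- Convex compact exhaustion by the balls `{y : hd 0 y ≤ R}`: compact, being the image under the
continuous map `ex 0` of the compact set `{v : g 0 v v / 2 ≤ R}`; contains a given compact set for
large `R` (`hd 0` is continuous); convex by `convexOn_hd`. -/
theorem exists_convex_compact (hg : IsMetric g) (hΓ : IsLeviCivita g Γ) (hK : IsNonpos g Γ)
    (h : IsFlow (spray Γ) Ψ) (C : Set (Ev n)) (hC : IsCompact C) :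
    ∃ K : Set (Ev n), IsCompact K ∧ C ⊆ K ∧ ∀ x ∈ K, ∀ w, ex Ψ x w ∈ K →
      ∀ s ∈ Set.Icc (0 : ℝ) 1, ex Ψ x (s • w) ∈ K := by
  have hcont := hd_continuous hg hΓ hK h
  obtain ⟨R, hR⟩ := (hC.bddAbove_image hcont.continuousOn)
  refine ⟨{y | hd g Ψ 0 y ≤ R}, ?_, ?_, ?_⟩
  · -- compactness
    obtain ⟨c, hc, C', _, hcC⟩ := metric_compact hg {(0 : Ev n)} isCompact_singleton
    have hF : ContDiff ℝ ∞ (spray Γ) := spray_contDiff hΓ.smooth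
    have hex : Continuous (fun v : Ev n => ex Ψ 0 v) := by
      have h1 : Continuous (fun p : ℝ × (Ev n × Ev n) => Ψ p.1 p.2) :=
        (IsFlow.contDiff hF h).continuous
      exact continuous_fst.comp (h1.comp (continuous_const.prodMk
        (continuous_const.prodMk continuous_id)))
    have hcomp : IsCompact ((fun v : Ev n => ex Ψ 0 v) ''
        Metric.closedBall (0 : Ev n) (Real.sqrt (2 * R / c))) :=
      (isCompact_closedBall _ _).image hex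
    refine hcomp.of_isClosed_subset (isClosed_le hcont continuous_const) ?_
    intro y hy
    refine ⟨lg Ψ 0 y, ?_, ex_lg hg hΓ hK h 0 y⟩
    have h1 := (hcC 0 rfl (lg Ψ 0 y)).1
    have h2 : g 0 (lg Ψ 0 y) (lg Ψ 0 y) / 2 ≤ R := hy
    rw [mem_closedBall_zero_iff]
    apply Real.le_sqrt_of_sq_le
    rw [le_div_iff₀ hc]
    linarith
  · intro y hy
    exact hR (Set.mem_image_of_mem _ hy)
  · intro x hx w hw s hs
    have hconv := convexOn_hd hg hΓ hK h 0 x w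
    have h1 := hconv.2 (Set.mem_univ (0 : ℝ)) (Set.mem_univ (1 : ℝ))
      (by linarith [hs.2] : 0 ≤ 1 - s) hs.1 (by ring)
    simp only [smul_eq_mul, mul_zero, mul_one, zero_add, one_smul] at h1
    have h2 : ex Ψ x ((0 : ℝ) • w) = x := by
      rw [ex_smul hΓ h, h.zero]
    rw [h2] at h1
    have hx' : hd g Ψ 0 x ≤ R := hx
    have hw' : hd g Ψ 0 (ex Ψ x w) ≤ R := hw
    show hd g Ψ 0 (ex Ψ x (s • w)) ≤ R
    calc hd g Ψ 0 (ex Ψ x (s • w)) ≤ (1 - s) * hd g Ψ 0 x + s * hd g Ψ 0 (ex Ψ x w) := h1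
      _ ≤ (1 - s) * R + s * R := by
        apply add_le_add
        · exact mul_le_mul_of_nonneg_left hx' (by linarith [hs.2])
        · exact mul_le_mul_of_nonneg_left hw' hs.1
      _ = R := by ring

/-- Properness: `lg` is continuous, hence bounded on `K × K`. -/
theorem exp_proper (hg : IsMetric g) (hΓ : IsLeviCivita g Γ) (hK : IsNonpos g Γ)
    (h : IsFlow (spray Γ) Ψ) (K : Set (Ev n)) (hKc : IsCompact K) :
    ∃ R : ℝ, ∀ x ∈ K, ∀ w, ex Ψ x w ∈ K → ‖w‖ ≤ R := by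
  have hlg : Continuous (fun p : Ev n × Ev n => lg Ψ p.1 p.2) :=
    (lg_contDiff hg hΓ hK h).continuous
  obtain ⟨R, hR⟩ := (hKc.prod hKc).exists_bound_of_continuousOn hlg.continuousOn
  refine ⟨R, fun x hx w hw => ?_⟩
  have h1 := hR (x, ex Ψ x w) ⟨hx, hw⟩
  rw [lg_ex hg hΓ hK h x w] at h1
  exact h1

end P219G
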