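import Mathlib.LinearAlgebra.FreeModule.PID
import Vale.Agent.Lib.P219.Geo.Metric

/-!
# P219: a continuous orthonormal frame
-/

open scoped ContDiff
open Vale.Agent.Lib.P219 (Ev)

namespace P219G

variable {n : ℕ}

/-- Gram-Schmidt with parameters. -/
private theorem frame_aux (g : Ev n → Ev n →L[ℝ] Ev n →L[ℝ] ℝ) (hg : IsMetric g) (k : ℕ)
    (hk : k ≤ n) :
    ∃ f : ℕ → Ev n → Ev n, (∀ i, Continuous (f i)) ∧
      (∀ i < k, ∀ j < k, ∀ x, g x (f i x) (f j x) = if i = j then 1 else 0) ∧
      (∀ i < k, ∀ x, ∀ m : Fin n, k ≤ m.1 → f i x m = 0) := by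
  induction k with
  | zero =>
    exact ⟨fun _ _ => 0, fun _ => continuous_const, fun i hi => absurd hi (Nat.not_lt_zero i),
      fun i hi => absurd hi (Nat.not_lt_zero i)⟩
  | succ k ih =>
    obtain ⟨f, hc, ho, hs⟩ := ih (Nat.le_of_succ_le hk)
    have hkn : k < n := hk
    set e : Ev n := EuclideanSpace.single ⟨k, hkn⟩ (1 : ℝ) with he
    have hgc : Continuous g := hg.smooth.continuous
    let v : Ev n → Ev n := fun x => e - ∑ j ∈ Finset.range k, g x (f j x) e • f j x
    have hvc : Continuous v := by
      refine continuous_const.sub (continuous_finsetSum _ fun j _ => ?_)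
      exact ((hgc.clm_apply (hc j)).clm_apply continuous_const).smul (hc j)
    have hvk : ∀ x, v x ⟨k, hkn⟩ = 1 := by
      intro x
      have h1 : (∑ j ∈ Finset.range k, g x (f j x) e • f j x) ⟨k, hkn⟩ = 0 := by
        rw [WithLp.ofLp_sum, Finset.sum_apply]
        refine Finset.sum_eq_zero fun j hj => ?_
        rw [PiLp.smul_apply, hs j (Finset.mem_range.1 hj) x ⟨k, hkn⟩ le_rfl, smul_zero]
      show (e - ∑ j ∈ Finset.range k, g x (f j x) e • f j x) ⟨k, hkn⟩ = 1
      rw [PiLp.sub_apply, h1, he, PiLp.single_apply, if_pos rfl, sub_zero]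
    have hv0 : ∀ x, v x ≠ 0 := by
      intro x h
      have h1 := hvk x
      rw [h, PiLp.zero_apply] at h1
      exact zero_ne_one h1
    have hvp : ∀ x, 0 < g x (v x) (v x) := fun x => hg.pos x _ (hv0 x)
    have hvo : ∀ x, ∀ i < k, g x (f i x) (v x) = 0 := by
      intro x i hi
      show g x (f i x) (e - ∑ j ∈ Finset.range k, g x (f j x) e • f j x) = 0
      rw [map_sub, map_sum]
      have h1 : ∑ j ∈ Finset.range k, g x (f i x) (g x (f j x) e • f j x) = g x (f i x) e := by
        rw [Finset.sum_eq_single i]
        · rw [map_smul, ho i hi i hi x, if_pos rfl, smul_eq_mul, mul_one]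
        · intro j hj hji
          rw [map_smul, ho i hi j (Finset.mem_range.1 hj) x, if_neg (Ne.symm hji), smul_zero]
        · intro h
          exact absurd (Finset.mem_range.2 hi) h
      rw [h1, sub_self]
    let w : Ev n → Ev n := fun x => (Real.sqrt (g x (v x) (v x)))⁻¹ • v x
    have hwc : Continuous w := by
      refine Continuous.smul (Continuous.inv₀ ?_ fun x => (Real.sqrt_pos.2 (hvp x)).ne') hvc
      exact Real.continuous_sqrt.comp ((hgc.clm_apply hvc).clm_apply hvc)
    have hwo : ∀ x, ∀ i < k, g x (f i x) (w x) = 0 := by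
      intro x i hi
      show g x (f i x) ((Real.sqrt (g x (v x) (v x)))⁻¹ • v x) = 0
      rw [map_smul, hvo x i hi, smul_zero]
    have hww : ∀ x, g x (w x) (w x) = 1 := by
      intro x
      show g x ((Real.sqrt (g x (v x) (v x)))⁻¹ • v x) ((Real.sqrt (g x (v x) (v x)))⁻¹ • v x) = 1
      rw [map_smul, map_smul, smul_apply, smul_eq_mul, smul_eq_mul]
      have h1 := Real.sqrt_pos.2 (hvp x)
      have h2 := Real.mul_self_sqrt (hvp x).le
      rw [← mul_assoc, ← mul_inv, h2]
      exact inv_mul_cancel₀ (hvp x).ne'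
    refine ⟨fun i => if i < k then f i else w, ?_, ?_, ?_⟩
    · intro i
      dsimp only
      split_ifs
      · exact hc i
      · exact hwc
    · intro i hi j hj x
      dsimp only
      rcases Nat.lt_succ_iff_lt_or_eq.1 hi with hi' | rfl
      · rcases Nat.lt_succ_iff_lt_or_eq.1 hj with hj' | rfl
        · rw [if_pos hi', if_pos hj']
          exact ho i hi' j hj' x
        · rw [if_pos hi', if_neg (lt_irrefl j), if_neg (ne_of_lt hi')]
          exact hwo x i hi'
      · rcases Nat.lt_succ_iff_lt_or_eq.1 hj with hj' | rfl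
        · rw [if_pos hj', if_neg (lt_irrefl i), if_neg (ne_of_gt hj'), hg.symm]
          exact hwo x j hj'
        · rw [if_neg (lt_irrefl j), if_pos rfl]
          exact hww x
    · intro i hi x m hm
      dsimp only
      split_ifs with h
      · exact hs i h x m (Nat.le_of_succ_le hm)
      · have hmk : m ≠ ⟨k, hkn⟩ := by
          intro h1
          rw [h1] at hm
          exact absurd hm (Nat.not_succ_le_self k)
        have h1 : (∑ j ∈ Finset.range k, g x (f j x) e • f j x) m = 0 := by
          rw [WithLp.ofLp_sum, Finset.sum_apply]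
          refine Finset.sum_eq_zero fun j hj => ?_
          rw [PiLp.smul_apply, hs j (Finset.mem_range.1 hj) x m (Nat.le_of_succ_le hm), smul_zero]
        have h2 : v x m = 0 := by
          show (e - ∑ j ∈ Finset.range k, g x (f j x) e • f j x) m = 0
          rw [PiLp.sub_apply, h1, he, PiLp.single_apply, if_neg hmk, sub_zero]
        show ((Real.sqrt (g x (v x) (v x)))⁻¹ • v x) m = 0
        rw [PiLp.smul_apply, h2, smul_zero]

/-- A continuous orthonormal frame: `Li x` is the positive square root of the Gram operator of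
`g x` with respect to the Euclidean inner product, `L x` its inverse. Continuity of the square root
on positive definite operators: if `A_k → A` then the square roots `B_k` are bounded, every limit point
is a nonnegative square root of `A`, hence equals `B` (uniqueness of the nonnegative square root);
or the continuous functional calculus (`ContinuousOn.cfc...`, `continuousOn_cfc`); or the inverse
function theorem for `B ↦ B²`; or Gram-Schmidt/Cholesky by induction on `n`, any continuous frame
will do. -/
theorem exists_frame (g : Ev n → Ev n →L[ℝ] Ev n →L[ℝ] ℝ) (hg : IsMetric g) :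
    ∃ L Li : Ev n → (Ev n →L[ℝ] Ev n), Continuous L ∧ Continuous Li ∧
      (∀ x v, L x (Li x v) = v) ∧ (∀ x v, Li x (L x v) = v) ∧
      ∀ x v w, g x v w = inner ℝ (Li x v) (Li x w) := by
  obtain ⟨f, hc, ho, -⟩ := frame_aux g hg n le_rfl
  have hgc : Continuous g := hg.smooth.continuous
  let L : Ev n → (Ev n →L[ℝ] Ev n) := fun x =>
    ∑ i : Fin n, (EuclideanSpace.proj i : Ev n →L[ℝ] ℝ).smulRight (f i x)
  let Li : Ev n → (Ev n →L[ℝ] Ev n) := fun x =>
    ∑ i : Fin n, (g x (f i x)).smulRight (EuclideanSpace.single i (1 : ℝ))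
  have hL : ∀ x v, L x v = ∑ i : Fin n, v i • f i x := by
    intro x v
    show (∑ i : Fin n, (EuclideanSpace.proj i : Ev n →L[ℝ] ℝ).smulRight (f i x)) v = _
    rw [sum_apply]
    rfl
  have hLi : ∀ x v, Li x v = ∑ i : Fin n, g x (f i x) v • EuclideanSpace.single i (1 : ℝ) := by
    intro x v
    show (∑ i : Fin n, (g x (f i x)).smulRight (EuclideanSpace.single i (1 : ℝ))) v = _
    rw [sum_apply]
    rfl
  have hLiL : ∀ x v, Li x (L x v) = v := by
    intro x v
    rw [hLi, hL]
    ext m
    rw [WithLp.ofLp_sum, Finset.sum_apply, Finset.sum_eq_single m]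
    · rw [PiLp.smul_apply, PiLp.single_apply, if_pos rfl, smul_eq_mul, mul_one, map_sum,
        Finset.sum_eq_single m]
      · rw [map_smul, ho m m.2 m m.2 x, if_pos rfl, smul_eq_mul, mul_one]
      · intro j _ hj
        rw [map_smul, ho m m.2 j j.2 x, if_neg (fun h => hj (Fin.ext h.symm)), smul_zero]
      · intro h
        exact absurd (Finset.mem_univ m) h
    · intro j _ hj
      rw [PiLp.smul_apply, PiLp.single_apply, if_neg (Ne.symm hj), smul_zero]
    · intro h
      exact absurd (Finset.mem_univ m) h
  have hLLi : ∀ x v, L x (Li x v) = v := by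
    intro x
    have h1 : (Li x : Ev n →ₗ[ℝ] Ev n) ∘ₗ (L x : Ev n →ₗ[ℝ] Ev n) = LinearMap.id := by
      ext v : 1
      exact hLiL x v
    have h2 := (LinearMap.comp_eq_id_comm ℝ (Ev n)).1 h1
    intro v
    exact congrArg (fun T : Ev n →ₗ[ℝ] Ev n => T v) h2
  have hiso : ∀ x v w, g x (L x v) (L x w) = inner ℝ v w := by
    intro x v w
    rw [hL x v, map_sum, sum_apply, hL x w]
    have h1 : ∀ i : Fin n, g x (v i • f i x) (∑ j : Fin n, w j • f j x) = v i * w i := by
      intro i
      rw [map_smul, smul_apply, map_sum, Finset.sum_eq_single i]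
      · rw [map_smul, ho i i.2 i i.2 x, if_pos rfl, smul_eq_mul, smul_eq_mul, mul_one]
      · intro j _ hj
        rw [map_smul, ho i i.2 j j.2 x, if_neg (fun h => hj (Fin.ext h.symm)), smul_zero]
      · intro h
        exact absurd (Finset.mem_univ i) h
    rw [Finset.sum_congr rfl fun i _ => h1 i, PiLp.inner_apply]
    refine Finset.sum_congr rfl fun i _ => ?_
    rw [RCLike.inner_apply, conj_trivial, mul_comm]
  refine ⟨L, Li, ?_, ?_, hLLi, hLiL, ?_⟩
  · rw [continuous_clm_apply]
    intro v
    simp_rw [hL]
    refine continuous_finsetSum _ fun i _ => ?_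
    have h1 : Continuous fun x => (v i) • f i x := (continuous_const_smul (v i)).comp (hc i)
    exact h1
  · rw [continuous_clm_apply]
    intro v
    simp_rw [hLi]
    exact continuous_finsetSum _ fun i _ =>
      ((hgc.clm_apply (hc i)).clm_apply continuous_const).smul continuous_const
  · intro x v w
    rw [← hiso x, hLLi, hLLi]

end P219G
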