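import Mathlib.Analysis.InnerProductSpace.Adjoint
import Vale.Agent.Lib.P219.Geo.Convex
import Vale.Agent.Lib.P219.Geo.Frame

/-!
# P219: from a Cartan-Hadamard metric on `ℝ^n` to the interface structure `HData`
-/

open scoped ContDiff
open Vale.Agent.Lib.P219 (Ev HData)

namespace P219G

variable {n : ℕ}

private theorem asm_det_eq (A B : Ev n →L[ℝ] Ev n)
    (h : ∀ v w, inner ℝ (A v) w = inner ℝ v (B w)) : B.det = A.det := by
  have h1 : (A : Ev n →ₗ[ℝ] Ev n) = (B : Ev n →ₗ[ℝ] Ev n).adjoint := by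
    rw [LinearMap.eq_adjoint_iff]
    exact h
  have b := stdOrthonormalBasis ℝ (Ev n)
  have h2 : LinearMap.det ((B : Ev n →ₗ[ℝ] Ev n).adjoint)
      = LinearMap.det (B : Ev n →ₗ[ℝ] Ev n) := by
    rw [← LinearMap.det_toMatrix b.toBasis, ← LinearMap.det_toMatrix b.toBasis,
      LinearMap.toMatrix_adjoint, Matrix.det_conjTranspose]
    simp
  show LinearMap.det (B : Ev n →ₗ[ℝ] Ev n) = LinearMap.det (A : Ev n →ₗ[ℝ] Ev n)
  rw [h1, h2]

/-- The determinant of the exponential map in frames is symmetric: with `y = ex x (L x w)`,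
`P = Li_y ∘ Dex x (L x w) ∘ L x` and `P' = Li_x ∘ Dex y (-ve) ∘ L y` are adjoint to each other
(`Dex_adjoint`), and adjoint operators have the same determinant. -/
theorem det_frame_symm {g : Ev n → Ev n →L[ℝ] Ev n →L[ℝ] ℝ}
    {Γ : Ev n → Ev n →L[ℝ] Ev n →L[ℝ] Ev n} {Ψ : ℝ → Ev n × Ev n → Ev n × Ev n}
    (hg : IsMetric g) (hΓ : IsLeviCivita g Γ) (hK : IsNonpos g Γ)
    (h : IsFlow (spray Γ) Ψ) (L Li : Ev n → (Ev n →L[ℝ] Ev n))
    (h1 : ∀ x v, L x (Li x v) = v) (h2 : ∀ x v, Li x (L x v) = v)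
    (h3 : ∀ x v w, g x v w = inner ℝ (Li x v) (Li x w)) (x v : Ev n) :
    (((Li x).comp (Dex Ψ (ex Ψ x v) (-(ve Ψ x v)))).comp (L (ex Ψ x v))).det =
      (((Li (ex Ψ x v)).comp (Dex Ψ x v)).comp (L x)).det := by
  apply asm_det_eq
  intro a b
  have e := Dex_adjoint hg hΓ hK h x v (L x a) (L (ex Ψ x v) b)
  rw [h3, h3, h2, h2] at e
  exact e

private theorem asm_ex_zero {Γ : Ev n → Ev n →L[ℝ] Ev n →L[ℝ] Ev n} (hΓ : ContDiff ℝ ∞ Γ)
    {Ψ : ℝ → Ev n × Ev n → Ev n × Ev n} (h : IsFlow (spray Γ) Ψ) (x : Ev n) :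
    ex Ψ x 0 = x := by
  have e := flow_smul hΓ h 1 0 x 0
  rw [zero_smul, zero_mul, h.zero] at e
  show (Ψ 1 (x, 0)).1 = x
  rw [e]

private theorem asm_ex_smul {Γ : Ev n → Ev n →L[ℝ] Ev n →L[ℝ] Ev n}
    {Ψ : ℝ → Ev n × Ev n → Ev n × Ev n} (hΓ : ContDiff ℝ ∞ Γ) (h : IsFlow (spray Γ) Ψ) :
    ContDiff ℝ ∞ (fun p : Ev n × Ev n => ex Ψ p.1 p.2) := by
  have h1 := IsFlow.contDiff (spray_contDiff hΓ) h
  have h2 : ContDiff ℝ ∞ (fun p : Ev n × Ev n => Ψ 1 (p.1, p.2)) :=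
    h1.comp (contDiff_const.prodMk (contDiff_fst.prodMk contDiff_snd))
  exact h2.fst

private theorem asm_hasFDerivAt {Γ : Ev n → Ev n →L[ℝ] Ev n →L[ℝ] Ev n}
    {Ψ : ℝ → Ev n × Ev n → Ev n × Ev n} (hΓ : ContDiff ℝ ∞ Γ) (h : IsFlow (spray Γ) Ψ)
    (x v : Ev n) : HasFDerivAt (fun w => ex Ψ x w) (Dex Ψ x v) v := by
  have h1 : ContDiff ℝ ∞ (fun w : Ev n => ex Ψ x w) :=
    (asm_ex_smul hΓ h).comp (contDiff_const.prodMk contDiff_id)
  exact (h1.differentiable (by simp) v).hasFDerivAt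

private theorem asm_Dex_cont {Γ : Ev n → Ev n →L[ℝ] Ev n →L[ℝ] Ev n}
    {Ψ : ℝ → Ev n × Ev n → Ev n × Ev n} (hΓ : ContDiff ℝ ∞ Γ) (h : IsFlow (spray Γ) Ψ) :
    Continuous (fun p : Ev n × Ev n => Dex Ψ p.1 p.2) := by
  have h1 : ContDiff ℝ ∞ (Function.uncurry fun (p : Ev n × Ev n) (w : Ev n) => ex Ψ p.1 w) :=
    (asm_ex_smul hΓ h).comp ((contDiff_fst.comp contDiff_fst).prodMk contDiff_snd)
  exact Continuous.fderiv h1 continuous_snd (by norm_cast)

/-- Every complete metric of nonpositive curvature on `ℝ^n` gives an `HData`. The flow in the frame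
is `fl t (x, w) = (y, Li y u)` with `(y, u) = Ψ t (x, L x w)`, and
`P x w = Li y ∘ Dex x (L x w) ∘ L x` with `y = ex x (L x w)`. -/
theorem exists_HData_flow (g : Ev n → Ev n →L[ℝ] Ev n →L[ℝ] ℝ) (hg : IsMetric g)
    (Γ : Ev n → Ev n →L[ℝ] Ev n →L[ℝ] Ev n) (hΓ : IsLeviCivita g Γ)
    (hK : IsNonpos g Γ) {Ψ : ℝ → Ev n × Ev n → Ev n × Ev n} (h : IsFlow (spray Γ) Ψ) :
    ∃ H : HData n, (∀ x v w, g x v w = inner ℝ (H.Li x v) (H.Li x w)) ∧
      (∀ t z, H.fl t z = ((Ψ t (z.1, H.L z.1 z.2)).1,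
        H.Li (Ψ t (z.1, H.L z.1 z.2)).1 (Ψ t (z.1, H.L z.1 z.2)).2)) ∧
      (∀ x w, H.P x w = ((H.Li (ex Ψ x (H.L x w))).comp (Dex Ψ x (H.L x w))).comp (H.L x)) := by
  obtain ⟨L, Li, hL, hLi, h1, h2, h3⟩ := exists_frame g hg
  have hsp := spray_contDiff hΓ.smooth
  have hsp1 : ContDiff ℝ 1 (spray Γ) := hsp.of_le (by norm_cast)
  have hΨc : Continuous fun p : ℝ × (Ev n × Ev n) => Ψ p.1 p.2 := IsFlow.continuous hsp1 h
  have hnorm : ∀ x v, g x v v = ‖Li x v‖ ^ 2 := by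
    intro x v
    rw [h3, real_inner_self_eq_norm_sq]
  have hnormL : ∀ x w, g x (L x w) (L x w) = ‖w‖ ^ 2 := by
    intro x w
    rw [hnorm, h2]
  have hm : Continuous fun p : ℝ × (Ev n × Ev n) => Ψ p.1 (p.2.1, L p.2.1 p.2.2) := by
    have hl : Continuous fun p : ℝ × (Ev n × Ev n) => L p.2.1 p.2.2 :=
      (hL.comp (continuous_fst.comp continuous_snd)).clm_apply (continuous_snd.comp continuous_snd)
    exact hΨc.comp (continuous_fst.prodMk ((continuous_fst.comp continuous_snd).prodMk hl))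
  refine ⟨{
    L := L
    Li := Li
    L_cont := hL
    Li_cont := hLi
    L_Li := h1
    Li_L := h2
    fl := fun t z => ((Ψ t (z.1, L z.1 z.2)).1,
      Li (Ψ t (z.1, L z.1 z.2)).1 (Ψ t (z.1, L z.1 z.2)).2)
    fl_cont := ?_
    fl_zero := ?_
    fl_add := ?_
    fl_norm := ?_
    fl_smul := ?_
    fl_deriv := ?_
    P := fun x w => ((Li (ex Ψ x (L x w))).comp (Dex Ψ x (L x w))).comp (L x)
    P_cont := ?_
    exp_deriv := ?_
    P_zero := ?_
    P_mono := ?_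
    P_gauss := ?_
    P_symm := ?_
    exp_bij := ?_
    exp_proper := ?_
    convex_exhaustion := ?_ }, h3, fun _ _ => rfl, fun _ _ => rfl⟩
  · exact (continuous_fst.comp hm).prodMk
      ((hLi.comp (continuous_fst.comp hm)).clm_apply (continuous_snd.comp hm))
  · intro z
    simp only [h.zero, h2]
  · intro s t z
    simp only [h1]
    rw [h.add hsp1]
  · intro t z
    have e := flow_speed hg hΓ h t (z.1, L z.1 z.2)
    rw [hnorm] at e
    simp only [hnormL] at e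
    exact (sq_eq_sq₀ (norm_nonneg _) (norm_nonneg _)).1 e
  · intro t c x w
    have e := flow_smul hΓ.smooth h t c x (L x w)
    simp only [map_smul]
    rw [e]
    simp only [map_smul]
  · intro t z
    simp only [h1]
    exact flow_vel h t _
  · have hv : Continuous fun p : Ev n × Ev n => L p.1 p.2 :=
      (hL.comp continuous_fst).clm_apply continuous_snd
    have hex : Continuous fun p : Ev n × Ev n => ex Ψ p.1 (L p.1 p.2) :=
      (asm_ex_smul hΓ.smooth h).continuous.comp (continuous_fst.prodMk hv)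
    have hD : Continuous fun p : Ev n × Ev n => Dex Ψ p.1 (L p.1 p.2) :=
      (asm_Dex_cont hΓ.smooth h).comp (continuous_fst.prodMk hv)
    exact ((hLi.comp hex).clm_comp hD).clm_comp (hL.comp continuous_fst)
  · intro x w
    have e1 := (asm_hasFDerivAt hΓ.smooth h x (L x w)).comp w (L x).hasFDerivAt
    have e2 : (L (Ψ 1 (x, L x w)).1).comp
        (((Li (ex Ψ x (L x w))).comp (Dex Ψ x (L x w))).comp (L x))
        = (Dex Ψ x (L x w)).comp (L x) := by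
      ext1 v
      simp only [ContinuousLinearMap.comp_apply]
      exact h1 _ _
    simp only [e2]
    exact e1
  · intro x ξ
    simp only [map_zero, ContinuousLinearMap.comp_apply]
    rw [Dex_zero hΓ h, asm_ex_zero hΓ.smooth h]
    simp [h2]
  · intro x w ξ s t hs hst
    have e := Dex_mono hg hΓ hK h x (L x w) (L x ξ) s t (by exact_mod_cast hs)
      (by exact_mod_cast hst)
    have es : L x (s • w) = (s : ℝ) • L x w := by
      first
        | exact map_smul (L x) s w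
        | rw [← Nat.cast_smul_eq_nsmul ℝ, map_smul]
    have et : L x (t • w) = (t : ℝ) • L x w := by
      first
        | exact map_smul (L x) t w
        | rw [← Nat.cast_smul_eq_nsmul ℝ, map_smul]
    rw [hnorm, hnorm] at e
    simp only [ContinuousLinearMap.comp_apply]
    rw [es, et]
    exact (sq_le_sq₀ (norm_nonneg _) (norm_nonneg _)).1 e
  · intro x w ξ
    have e := Dex_gauss hg hΓ h x (L x w) (L x ξ)
    rw [h3, h3, h2, h2] at e
    exact e
  · intro x w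
    have e := det_frame_symm hg hΓ hK h L Li h1 h2 h3 x (L x w)
    have e2 : L (Ψ 1 (x, L x w)).1 (-(Li (Ψ 1 (x, L x w)).1 (Ψ 1 (x, L x w)).2))
        = -(ve Ψ x (L x w)) := by
      rw [map_neg, h1]
      rfl
    have e3 : ex Ψ (ex Ψ x (L x w)) (-(ve Ψ x (L x w))) = x := by
      show (Ψ 1 (ex Ψ x (L x w), -(ve Ψ x (L x w)))).1 = x
      rw [flow_back hΓ.smooth h]
    simp only [e2]
    have e4 : (Ψ 1 (x, L x w)).1 = ex Ψ x (L x w) := rfl
    rw [e4, e3, e]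
  · intro x
    have hb : Function.Bijective (L x) :=
      ⟨fun a b hab => by rw [← h2 x a, hab, h2], fun a => ⟨Li x a, h1 x a⟩⟩
    exact (ex_bijective hg hΓ hK h x).comp hb
  · intro K hKc
    obtain ⟨R, hR⟩ := exp_proper hg hΓ hK h K hKc
    obtain ⟨C, hC⟩ := hKc.exists_bound_of_continuousOn hLi.continuousOn
    refine ⟨|C| * |R|, fun x hx w hw => ?_⟩
    have e1 := hR x hx (L x w) hw
    calc ‖w‖ = ‖Li x (L x w)‖ := by rw [h2]
      _ ≤ ‖Li x‖ * ‖L x w‖ := (Li x).le_opNorm _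
      _ ≤ |C| * |R| := mul_le_mul ((hC x hx).trans (le_abs_self C))
        (e1.trans (le_abs_self R)) (norm_nonneg _) (abs_nonneg _)
  · intro C hC
    obtain ⟨K, hK1, hK2, hK3⟩ := exists_convex_compact hg hΓ hK h C hC
    refine ⟨K, hK1, hK2, fun x hx w hw s hs => ?_⟩
    have e := hK3 x hx (L x w) hw s hs
    simp only [map_smul]
    exact e

theorem exists_HData_smooth (g : Ev n → Ev n →L[ℝ] Ev n →L[ℝ] ℝ) (hg : IsMetric g)
    (Γ : Ev n → Ev n →L[ℝ] Ev n →L[ℝ] Ev n) (hΓ : IsLeviCivita g Γ) (hc : IsComplete Γ)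
    (hK : IsNonpos g Γ) :
    ∃ H : HData n, (∀ x v w, g x v w = inner ℝ (H.Li x v) (H.Li x w)) ∧
      ∀ x, ContDiff ℝ ∞ (H.Ex x) := by
  obtain ⟨Ψ, h⟩ := exists_flow hc
  obtain ⟨H, h3, hfl, -⟩ := exists_HData_flow g hg Γ hΓ hK h
  refine ⟨H, h3, fun x => ?_⟩
  have e1 : ContDiff ℝ ∞ (fun w : Ev n => ex Ψ x w) :=
    (asm_ex_smul hΓ.smooth h).comp (contDiff_const.prodMk contDiff_id)
  have e2 : H.Ex x = fun w => ex Ψ x (H.L x w) := by
    funext w
    show (H.fl 1 (x, w)).1 = _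
    rw [hfl]
    rfl
  rw [e2]
  exact e1.comp (H.L x).contDiff

theorem exists_HData (g : Ev n → Ev n →L[ℝ] Ev n →L[ℝ] ℝ) (hg : IsMetric g)
    (Γ : Ev n → Ev n →L[ℝ] Ev n →L[ℝ] Ev n) (hΓ : IsLeviCivita g Γ) (hc : IsComplete Γ)
    (hK : IsNonpos g Γ) :
    ∃ H : HData n, ∀ x v w, g x v w = inner ℝ (H.Li x v) (H.Li x w) := by
  obtain ⟨H, h, -⟩ := exists_HData_smooth g hg Γ hΓ hc hK
  exact ⟨H, h⟩

end P219G
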