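import Vale.Agent.Lib.P219.Geo.Metric

/-!
# P219: existence and uniqueness of the Levi-Civita connection
-/

open scoped ContDiff
open Vale.Agent.Lib.P219 (Ev)

set_option maxSynthPendingDepth 3

namespace P219G

section LeviCivitaReal

variable {F : Type*} [NormedAddCommGroup F] [NormedSpace ℝ F]

/-- the Koszul trilinear form as a function of the derivative of the metric -/
private noncomputable def LeviCivita_koszul (D : F →L[ℝ] F →L[ℝ] F →L[ℝ] ℝ) :
    F →L[ℝ] F →L[ℝ] F →L[ℝ] ℝ :=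
  (1 / 2 : ℝ) • (D + D.flip -
    ((ContinuousLinearMap.flipₗᵢ ℝ F F ℝ).toContinuousLinearEquiv :
      (F →L[ℝ] F →L[ℝ] ℝ) →L[ℝ] (F →L[ℝ] F →L[ℝ] ℝ)).comp D.flip)

private theorem LeviCivita_koszul_apply (D : F →L[ℝ] F →L[ℝ] F →L[ℝ] ℝ) (u v w : F) :
    LeviCivita_koszul D u v w = (1 / 2 : ℝ) * (D u v w + D v u w - D w u v) := by
  simp [LeviCivita_koszul]

private theorem LeviCivita_koszul_smooth {M : Set F} {D : F → F →L[ℝ] F →L[ℝ] F →L[ℝ] ℝ}
    (hD : ContDiffOn ℝ ∞ D M) : ContDiffOn ℝ ∞ (fun p => LeviCivita_koszul (D p)) M := by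
  have h1 : ContDiffOn ℝ ∞ (fun p => (D p).flip) M :=
    (ContinuousLinearMap.flipₗᵢ ℝ F F (F →L[ℝ] ℝ)).contDiff.comp_contDiffOn hD
  have h2 : ContDiffOn ℝ ∞ (fun p =>
      ((ContinuousLinearMap.flipₗᵢ ℝ F F ℝ).toContinuousLinearEquiv :
      (F →L[ℝ] F →L[ℝ] ℝ) →L[ℝ] (F →L[ℝ] F →L[ℝ] ℝ)).comp (D p).flip) M :=
    ContDiffOn.clm_comp contDiffOn_const h1
  exact ((hD.add h1).sub h2).const_smul (1 / 2 : ℝ)

/-- the derivative of the metric is symmetric -/
private theorem LeviCivita_symm {M : Set F} (hM : IsOpen M) {g : F → F →L[ℝ] F →L[ℝ] ℝ}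
    (hs : ContDiffOn ℝ ∞ g M) (hsym : ∀ p ∈ M, ∀ u v : F, g p u v = g p v u)
    {p : F} (hp : p ∈ M) (u v w : F) :
    fderiv ℝ g p u v w = fderiv ℝ g p u w v := by
  have hd : DifferentiableAt ℝ g p :=
    (hs.contDiffAt (hM.mem_nhds hp)).differentiableAt (by simp)
  have key : ∀ a b : F, fderiv ℝ (fun q => g q a b) p u = fderiv ℝ g p u a b := by
    intro a b
    have h1 := (hd.hasFDerivAt.clm_apply (hasFDerivAt_const a p)).clm_apply (hasFDerivAt_const b p)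
    rw [h1.fderiv]
    simp
  rw [← key v w, ← key w v]
  have h2 : (fun q => g q v w) =ᶠ[nhds p] (fun q => g q w v) := by
    filter_upwards [hM.mem_nhds hp] with q hq
    exact hsym q hq v w
  rw [h2.fderiv_eq]

/-- the metric at a point as an isomorphism -/
private theorem LeviCivita_equiv [FiniteDimensional ℝ F] {G : F →L[ℝ] F →L[ℝ] ℝ}
    (hG : ∀ u : F, u ≠ 0 → 0 < G u u) :
    ∃ e : F ≃L[ℝ] (F →L[ℝ] ℝ), (e : F →L[ℝ] (F →L[ℝ] ℝ)) = G := by
  have hinj : Function.Injective (G : F →ₗ[ℝ] (F →L[ℝ] ℝ)) := by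
    rw [injective_iff_map_eq_zero]
    intro u hu
    by_contra h0
    have h1 := hG u h0
    have h2 : G u = 0 := hu
    rw [h2] at h1
    simp at h1
  have hfr : Module.finrank ℝ F = Module.finrank ℝ (F →L[ℝ] ℝ) := by
    have h1 : Module.finrank ℝ (F →L[ℝ] ℝ) = Module.finrank ℝ (Module.Dual ℝ F) :=
      (LinearEquiv.finrank_eq (LinearMap.toContinuousLinearMap (𝕜 := ℝ) (E := F) (F' := ℝ))).symm
    rw [h1, Subspace.dual_finrank_eq]
  let e0 : F ≃ₗ[ℝ] (F →L[ℝ] ℝ) :=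
    LinearEquiv.ofInjectiveOfFinrankEq (G : F →ₗ[ℝ] (F →L[ℝ] ℝ)) hinj hfr
  refine ⟨e0.toContinuousLinearEquiv, ?_⟩
  ext u v
  rfl

private theorem LeviCivita_exists [FiniteDimensional ℝ F] {M : Set F} (hM : IsOpen M)
    {g : F → F →L[ℝ] F →L[ℝ] ℝ} (hs : ContDiffOn ℝ ∞ g M)
    (hsym : ∀ p ∈ M, ∀ u v : F, g p u v = g p v u)
    (hpos : ∀ p ∈ M, ∀ u : F, u ≠ 0 → 0 < g p u u) :
    ∃ Γ : F → F →L[ℝ] F →L[ℝ] F, ContDiffOn ℝ ∞ Γ M ∧
      (∀ p ∈ M, ∀ u v : F, Γ p u v = Γ p v u) ∧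
      ∀ p ∈ M, ∀ u v w : F, fderiv ℝ g p u v w = g p (Γ p u v) w + g p v (Γ p u w) := by
  have : CompleteSpace F := FiniteDimensional.complete ℝ F
  let K : F → F →L[ℝ] F →L[ℝ] F →L[ℝ] ℝ := fun p => LeviCivita_koszul (fderiv ℝ g p)
  let inv : F → (F →L[ℝ] ℝ) →L[ℝ] F := fun p => ContinuousLinearMap.inverse (g p)
  let Γ : F → F →L[ℝ] F →L[ℝ] F := fun p =>
    (ContinuousLinearMap.compL ℝ F (F →L[ℝ] ℝ) F (inv p)).comp (K p)
  have hinv : ∀ p ∈ M, ∀ φ : F →L[ℝ] ℝ, g p (inv p φ) = φ := by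
    intro p hp φ
    obtain ⟨e, he⟩ := LeviCivita_equiv (hpos p hp)
    show g p (ContinuousLinearMap.inverse (g p) φ) = φ
    rw [← he, ContinuousLinearMap.inverse_equiv]
    simp
  have hG : ∀ p ∈ M, ∀ u v w : F, g p (Γ p u v) w =
      (1 / 2 : ℝ) * (fderiv ℝ g p u v w + fderiv ℝ g p v u w - fderiv ℝ g p w u v) := by
    intro p hp u v w
    have h1 : Γ p u v = inv p (K p u v) := rfl
    rw [h1, hinv p hp]
    exact LeviCivita_koszul_apply _ u v w
  refine ⟨Γ, ?_, ?_, ?_⟩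
  · have hD : ContDiffOn ℝ ∞ (fderiv ℝ g) M :=
      hs.fderiv_of_isOpen hM (by simp)
    have hK : ContDiffOn ℝ ∞ K M := LeviCivita_koszul_smooth hD
    have hI : ContDiffOn ℝ ∞ inv M := by
      intro p hp
      obtain ⟨e, he⟩ := LeviCivita_equiv (hpos p hp)
      have h1 : ContDiffAt ℝ ∞ ContinuousLinearMap.inverse (g p) := by
        rw [← he]
        exact contDiffAt_map_inverse e
      exact (h1.comp p (hs.contDiffAt (hM.mem_nhds hp))).contDiffWithinAt
    have hC : ContDiffOn ℝ ∞ (fun p => ContinuousLinearMap.compL ℝ F (F →L[ℝ] ℝ) F (inv p)) M :=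
      (ContinuousLinearMap.compL ℝ F (F →L[ℝ] ℝ) F).contDiff.comp_contDiffOn hI
    exact hC.clm_comp hK
  · intro p hp u v
    have h1 : K p u v = K p v u := by
      ext w
      have e1 := LeviCivita_koszul_apply (fderiv ℝ g p) u v w
      have e2 := LeviCivita_koszul_apply (fderiv ℝ g p) v u w
      have e3 := LeviCivita_symm hM hs hsym hp w u v
      show LeviCivita_koszul (fderiv ℝ g p) u v w = LeviCivita_koszul (fderiv ℝ g p) v u w
      rw [e1, e2, e3]
      ring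
    show inv p (K p u v) = inv p (K p v u)
    rw [h1]
  · intro p hp u v w
    rw [hsym p hp v (Γ p u w), hG p hp, hG p hp, LeviCivita_symm hM hs hsym hp u w v]
    ring

end LeviCivitaReal

variable {n : ℕ}

/-- Existence (Koszul formula): `g p` is an invertible map `ℝ^n → (ℝ^n)*` (injective by positivity),
its inverse depends smoothly on `p` (`ContDiffAt.inverse` / `contDiffAt_map_inverse`), and
`Γ p u v = (g p)^{-1} (w ↦ (D_u g (v, w) + D_v g (u, w) - D_w g (u, v)) / 2)`. -/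
theorem exists_leviCivita (g : Ev n → Ev n →L[ℝ] Ev n →L[ℝ] ℝ) (hg : IsMetric g) :
    ∃ Γ : Ev n → Ev n →L[ℝ] Ev n →L[ℝ] Ev n, IsLeviCivita g Γ := by
  obtain ⟨Γ, h1, h2, h3⟩ := LeviCivita_exists isOpen_univ hg.smooth.contDiffOn
    (fun p _ => hg.symm p) (fun p _ => hg.pos p)
  exact ⟨Γ, contDiffOn_univ.1 h1, fun p => h2 p (Set.mem_univ p), fun p => h3 p (Set.mem_univ p)⟩

/-- Uniqueness: `2 g(Γ(u,v), w) = D_u g (v, w) + D_v g (u, w) - D_w g (u, v)` for every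
Levi-Civita connection. -/
theorem leviCivita_unique (g : Ev n → Ev n →L[ℝ] Ev n →L[ℝ] ℝ) (hg : IsMetric g)
    (Γ Γ' : Ev n → Ev n →L[ℝ] Ev n →L[ℝ] Ev n) (h : IsLeviCivita g Γ) (h' : IsLeviCivita g Γ') :
    Γ = Γ' := by
  funext p
  have hT : ∀ u v w : Ev n, g p (Γ p u v) w - g p (Γ' p u v) w = 0 := by
    intro u v w
    have m1 := h.metric p u v w
    have m1' := h'.metric p u v w
    have m2 := h.metric p v w u
    have m2' := h'.metric p v w u
    have m3 := h.metric p w u v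
    have m3' := h'.metric p w u v
    have s1 := h.torsion_free p v u
    have s2 := h.torsion_free p w u
    have s3 := h.torsion_free p w v
    have s1' := h'.torsion_free p v u
    have s2' := h'.torsion_free p w u
    have s3' := h'.torsion_free p w v
    rw [s1] at m2
    rw [s1'] at m2'
    rw [s2, s3] at m3
    rw [s2', s3'] at m3'
    have g1 := hg.symm p v (Γ p u w)
    have g2 := hg.symm p w (Γ p u v)
    have g3 := hg.symm p u (Γ p v w)
    have g1' := hg.symm p v (Γ' p u w)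
    have g2' := hg.symm p w (Γ' p u v)
    have g3' := hg.symm p u (Γ' p v w)
    rw [g1] at m1
    rw [g1'] at m1'
    rw [g2] at m2
    rw [g2'] at m2'
    rw [g3] at m3
    rw [g3'] at m3'
    linarith
  ext1 u
  ext1 v
  by_contra hne
  have hne' : Γ p u v - Γ' p u v ≠ 0 := sub_ne_zero.mpr hne
  have hpos := hg.pos p _ hne'
  have h0 := hT u v (Γ p u v - Γ' p u v)
  have e1 : g p (Γ p u v - Γ' p u v) = g p (Γ p u v) - g p (Γ' p u v) := map_sub _ _ _
  have e2 : g p (Γ p u v - Γ' p u v) (Γ p u v - Γ' p u v) =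
      g p (Γ p u v) (Γ p u v - Γ' p u v) - g p (Γ' p u v) (Γ p u v - Γ' p u v) := by
    rw [e1]
    rfl
  linarith

end P219G
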