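import Vale.Agent.Lib.P219.MetricDefs
import Vale.Agent.Lib.P219.Geo.Assemble
import Vale.Agent.Lib.P219.Geo.LeviCivita

/-!
# P219: the statement level definitions give the hypotheses of the geometric part
-/

open scoped ContDiff
open Vale.Agent.Lib.P219 (Ev HData Represents IsCH)

namespace P219G

variable {n : ℕ}

/-- The Levi-Civita connection is smooth and is the one of `exists_leviCivita` (Koszul). -/
theorem isLeviCivita_of_lc (g : Ev n → Ev n →L[ℝ] Ev n →L[ℝ] ℝ)
    (hg : Vale.Agent.Lib.P219.IsMetric g) (Γ : Ev n → Ev n →L[ℝ] Ev n →L[ℝ] Ev n)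
    (h : Vale.Agent.Lib.P219.IsLeviCivita g Γ) : IsMetric g ∧ IsLeviCivita g Γ := by
  have hg' : IsMetric g := ⟨hg.smooth, hg.symm, hg.pos⟩
  obtain ⟨Γ', h'⟩ := exists_leviCivita g hg'
  have hEq : Γ = Γ' := by
    funext p
    have hT : ∀ u v w : Ev n, g p (Γ p u v) w - g p (Γ' p u v) w = 0 := by
      intro u v w
      have m1 := h.compat p u v w
      have m1' := h'.metric p u v w
      have m2 := h.compat p v w u
      have m2' := h'.metric p v w u
      have m3 := h.compat p w u v
      have m3' := h'.metric p w u v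
      have s1 := h.symm p v u
      have s2 := h.symm p w u
      have s3 := h.symm p w v
      have s1' := h'.torsion_free p v u
      have s2' := h'.torsion_free p w u
      have s3' := h'.torsion_free p w v
      rw [s1] at m2
      rw [s1'] at m2'
      rw [s2, s3] at m3
      rw [s2', s3'] at m3'
      have g1 := hg.symm p v (Γ p u w)
      have g2 := hg.symm p w (Γ p u v)
      have g3 := hg.symm p u (Γ p v w)
      have g1' := hg.symm p v (Γ' p u w)
      have g2' := hg.symm p w (Γ' p u v)
      have g3' := hg.symm p u (Γ' p v w)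
      rw [g1] at m1
      rw [g1'] at m1'
      rw [g2] at m2
      rw [g2'] at m2'
      rw [g3] at m3
      rw [g3'] at m3'
      linarith
    ext1 u
    ext1 v
    by_contra hne
    have hne' : Γ p u v - Γ' p u v ≠ 0 := sub_ne_zero.mpr hne
    have hpos := hg.pos p _ hne'
    have h0 := hT u v (Γ p u v - Γ' p u v)
    have e1 : g p (Γ p u v - Γ' p u v) = g p (Γ p u v) - g p (Γ' p u v) := map_sub _ _ _
    have e2 : g p (Γ p u v - Γ' p u v) (Γ p u v - Γ' p u v) =
        g p (Γ p u v) (Γ p u v - Γ' p u v) - g p (Γ' p u v) (Γ p u v - Γ' p u v) := by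
      rw [e1]
      rfl
    linarith
  refine ⟨hg', ?_⟩
  rw [hEq]
  exact h'

/-- Cauchy-Schwarz for the metric at a point. -/
private theorem bridge_cs (g : Ev n → Ev n →L[ℝ] Ev n →L[ℝ] ℝ)
    (hg : IsMetric g) (p u v : Ev n) : 0 ≤ g p u u * g p v v - g p u v ^ 2 := by
  by_cases hu : u = 0
  · subst hu
    simp
  · have hpos := hg.pos p u hu
    have hw : 0 ≤ g p (g p u u • v - g p u v • u) (g p u u • v - g p u v • u) := by
      by_cases h0 : g p u u • v - g p u v • u = 0
      · rw [h0]
        simp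
      · exact (hg.pos p _ h0).le
    have hexp : g p (g p u u • v - g p u v • u) (g p u u • v - g p u v • u) =
        g p u u * (g p u u * g p v v - g p u v ^ 2) := by
      simp only [map_sub, map_smul, sub_apply, smul_apply, smul_eq_mul]
      rw [hg.symm p v u]
      ring
    rw [hexp] at hw
    exact nonneg_of_mul_nonneg_right hw hpos

/-- Part G: every Cartan-Hadamard metric on `ℝ^n` is represented by an `HData`. -/
theorem exists_HData_smooth_of_isCH (g : Ev n → Ev n →L[ℝ] Ev n →L[ℝ] ℝ)
    (Γ : Ev n → Ev n →L[ℝ] Ev n →L[ℝ] Ev n) (h : IsCH g Γ) :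
    ∃ H : HData n, Represents H g ∧ ∀ x, ContDiff ℝ ∞ (H.Ex x) := by
  obtain ⟨hg, hΓ⟩ := isLeviCivita_of_lc g h.metric Γ h.lc
  have hc : IsComplete Γ := by
    intro p v
    obtain ⟨γ, hγ, h0, h1⟩ := h.complete p v
    exact ⟨γ, h0, h1, fun t => ⟨hγ.1 t, hγ.2 t⟩⟩
  have hK : IsNonpos g Γ := by
    intro p u v _
    unfold sectionalCurvature
    apply div_nonpos_of_nonpos_of_nonneg
    · exact h.sec p u v
    · exact bridge_cs g hg p u v
  exact exists_HData_smooth g hg Γ hΓ hc hK

/-- Part G: every Cartan-Hadamard metric on `ℝ^n` is represented by an `HData`. -/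
theorem exists_HData_of_isCH (g : Ev n → Ev n →L[ℝ] Ev n →L[ℝ] ℝ)
    (Γ : Ev n → Ev n →L[ℝ] Ev n →L[ℝ] Ev n) (h : IsCH g Γ) :
    ∃ H : HData n, Represents H g := by
  obtain ⟨H, hH, -⟩ := exists_HData_smooth_of_isCH g Γ h
  exact ⟨H, hH⟩

end P219G
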