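import Mathlib.Analysis.ODE.ExistUnique
import Vale.Agent.Lib.P219.Geo.FlowDefs

/-!
# P219: uniqueness, group law and continuity of a global flow
-/

open scoped ContDiff

namespace P219G

variable {X : Type*} [NormedAddCommGroup X] [NormedSpace ℝ X]

open Filter Topology in
/-- Uniqueness of global solutions of `c' = F c` for a `C^1` field.
Proof: for `t ≥ 0` the set `{t ≥ 0 : c = Ψ · (c 0) on [0, t]}` is closed, and open by local
uniqueness (`ODE_solution_unique_of_mem_Ioo` or `ODE_solution_unique_of_mem_Icc`, a `C^1` map being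
Lipschitz near each point: `ContDiffAt.exists_lipschitzOnWith`); or directly: on `[0, T]` both
trajectories stay in a compact set; a `C^1` map is Lipschitz on a neighbourhood of a compact
convex set / use a finite cover. Negative times: reverse time. -/
theorem IsFlow.eq_of_hasDerivAt {F : X → X} {Ψ : ℝ → X → X} (hF : ContDiff ℝ 1 F)
    (h : IsFlow F Ψ) {c : ℝ → X} (hc : ∀ t, HasDerivAt c (F (c t)) t) (t : ℝ) :
    c t = Ψ t (c 0) := by
  have hcont : Continuous c := continuous_iff_continuousAt.2 fun t => (hc t).continuousAt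
  have hcont2 : Continuous fun t => Ψ t (c 0) :=
    continuous_iff_continuousAt.2 fun t => (h.deriv t (c 0)).continuousAt
  have hcl : IsClosed {t | c t = Ψ t (c 0)} := isClosed_eq hcont hcont2
  have hop : IsOpen {t | c t = Ψ t (c 0)} := by
    rw [isOpen_iff_mem_nhds]
    intro t ht
    have ht' : c t = Ψ t (c 0) := ht
    obtain ⟨K, s, hs, hK⟩ := (hF.contDiffAt (x := c t)).exists_lipschitzOnWith
    have h1 : ∀ᶠ r in 𝓝 t, c r ∈ s := hcont.continuousAt.eventually_mem hs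
    have h2 : ∀ᶠ r in 𝓝 t, Ψ r (c 0) ∈ s := by
      have hs' : s ∈ 𝓝 (Ψ t (c 0)) := ht' ▸ hs
      exact hcont2.continuousAt.eventually_mem hs'
    exact ODE_solution_unique_of_eventually (v := fun _ => F) (s := fun _ => s) (K := K)
      (Eventually.of_forall fun _ => hK) (h1.mono fun r hr => ⟨hc r, hr⟩)
      (h2.mono fun r hr => ⟨h.deriv r (c 0), hr⟩) ht'
  have huniv : {t | c t = Ψ t (c 0)} = Set.univ :=
    IsClopen.eq_univ ⟨hcl, hop⟩ ⟨0, (h.zero (c 0)).symm⟩
  have : t ∈ {t | c t = Ψ t (c 0)} := by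
    rw [huniv]
    trivial
  exact this

/-- Group law. -/
theorem IsFlow.add {F : X → X} {Ψ : ℝ → X → X} (hF : ContDiff ℝ 1 F)
    (h : IsFlow F Ψ) (s t : ℝ) (z : X) : Ψ (s + t) z = Ψ s (Ψ t z) := by
  have hc : ∀ r : ℝ, HasDerivAt (fun r => Ψ (r + t) z) (F (Ψ (r + t) z)) r := fun r =>
    (h.deriv (r + t) z).comp_add_const r t
  have h1 := h.eq_of_hasDerivAt hF hc s
  simpa using h1

/-- a `C^1` field is Lipschitz on balls -/
private theorem lip_ball [FiniteDimensional ℝ X] {F : X → X} (hF : ContDiff ℝ 1 F) (R : ℝ) :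
    ∃ L : NNReal, LipschitzOnWith L F (Metric.closedBall 0 R) := by
  have : ProperSpace X := FiniteDimensional.proper ℝ X
  have hc : Continuous fun x => ‖fderiv ℝ F x‖ :=
    continuous_norm.comp (hF.continuous_fderiv (by norm_num))
  obtain ⟨C, hC⟩ := (isCompact_closedBall (0 : X) R).exists_bound_of_continuousOn hc.continuousOn
  refine ⟨C.toNNReal, ?_⟩
  refine Convex.lipschitzOnWith_of_nnnorm_fderiv_le (𝕜 := ℝ)
    (fun x _ => (hF.differentiable (by norm_num)).differentiableAt) (fun x hx => ?_)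
    (convex_closedBall 0 R)
  have h1 := hC x hx
  rw [norm_norm] at h1
  rw [← NNReal.coe_le_coe, coe_nnnorm]
  exact h1.trans (Real.le_coe_toNNReal C)

open Set in
/-- Gronwall estimate for positive times -/
private theorem near [FiniteDimensional ℝ X] {F : X → X} {Ψ : ℝ → X → X}
    (hF : ContDiff ℝ 1 F) (h : IsFlow F Ψ) (z0 : X) (T : ℝ) :
    ∃ C > 0, ∃ δ > 0, ∀ z, ‖z - z0‖ < δ → ∀ t ∈ Icc 0 T, ‖Ψ t z - Ψ t z0‖ ≤ C * ‖z - z0‖ := by
  have hcont : ∀ z, Continuous fun t => Ψ t z := fun z =>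
    continuous_iff_continuousAt.2 fun t => (h.deriv t z).continuousAt
  obtain ⟨R, hR⟩ := (isCompact_Icc (a := (0 : ℝ)) (b := T)).exists_bound_of_continuousOn
    (hcont z0).continuousOn
  obtain ⟨L, hL⟩ := lip_ball hF (R + 1)
  have hE : 0 < Real.exp (L * T) := Real.exp_pos _
  -- Gronwall on an interval where the trajectory stays close
  have gron : ∀ z, ∀ t1 ∈ Icc 0 T, (∀ t ∈ Ico 0 t1, ‖Ψ t z - Ψ t z0‖ ≤ 1) →
      ‖Ψ t1 z - Ψ t1 z0‖ ≤ Real.exp (L * T) * ‖z - z0‖ := by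
    intro z t1 ht1 hclose
    have key := dist_le_of_trajectories_ODE_of_mem (v := fun _ => F)
      (s := fun _ => Metric.closedBall (0 : X) (R + 1)) (K := L) (a := 0) (b := t1)
      (f := fun t => Ψ t z) (g := fun t => Ψ t z0) (δ := ‖z - z0‖)
      (fun _ _ => hL) (hcont z).continuousOn (fun t _ => (h.deriv t z).hasDerivWithinAt)
      (fun t ht => by
        have h1 := hclose t ht
        have h2 := hR t ⟨ht.1, ht.2.le.trans ht1.2⟩
        have h3 : Ψ t z = (Ψ t z - Ψ t z0) + Ψ t z0 := by abel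
        rw [mem_closedBall_zero_iff]
        calc ‖Ψ t z‖ = ‖(Ψ t z - Ψ t z0) + Ψ t z0‖ := by rw [← h3]
          _ ≤ ‖Ψ t z - Ψ t z0‖ + ‖Ψ t z0‖ := norm_add_le _ _
          _ ≤ R + 1 := by linarith)
      (hcont z0).continuousOn (fun t _ => (h.deriv t z0).hasDerivWithinAt)
      (fun t ht => by
        have h2 := hR t ⟨ht.1, ht.2.le.trans ht1.2⟩
        rw [mem_closedBall_zero_iff]
        linarith)
      (by rw [dist_eq_norm, h.zero, h.zero]) t1 ⟨ht1.1, le_refl t1⟩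
    rw [dist_eq_norm, sub_zero] at key
    have hexp : Real.exp (L * t1) ≤ Real.exp (L * T) :=
      Real.exp_le_exp.2 (mul_le_mul_of_nonneg_left ht1.2 L.coe_nonneg)
    calc ‖Ψ t1 z - Ψ t1 z0‖ ≤ ‖z - z0‖ * Real.exp (L * t1) := key
      _ ≤ ‖z - z0‖ * Real.exp (L * T) := mul_le_mul_of_nonneg_left hexp (norm_nonneg _)
      _ = Real.exp (L * T) * ‖z - z0‖ := mul_comm _ _
  refine ⟨Real.exp (L * T), hE, (Real.exp (L * T))⁻¹, inv_pos.2 hE, fun z hz => ?_⟩
  have hlt : Real.exp (L * T) * ‖z - z0‖ < 1 := by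
    have := mul_lt_mul_of_pos_left hz hE
    rwa [mul_inv_cancel₀ hE.ne'] at this
  -- the trajectory stays close
  have hstay : ∀ t ∈ Icc 0 T, ‖Ψ t z - Ψ t z0‖ < 1 := by
    by_contra hcon
    push Not at hcon
    obtain ⟨t2, ht2, ht2'⟩ := hcon
    have hdc : Continuous fun t => ‖Ψ t z - Ψ t z0‖ := ((hcont z).sub (hcont z0)).norm
    have hcomp : IsCompact (Icc 0 T ∩ {t | 1 ≤ ‖Ψ t z - Ψ t z0‖}) :=
      isCompact_Icc.inter_right (isClosed_le continuous_const hdc)
    obtain ⟨t1, ⟨ht1, ht1'⟩, hmin⟩ := hcomp.exists_isLeast ⟨t2, ht2, ht2'⟩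
    have hb := gron z t1 ht1 (fun t ht => by
      by_contra hcon
      have hcon' : 1 < ‖Ψ t z - Ψ t z0‖ := not_le.1 hcon
      have : t1 ≤ t := hmin ⟨⟨ht.1, ht.2.le.trans ht1.2⟩, hcon'.le⟩
      exact absurd ht.2 (not_lt.2 this))
    have ht1'' : 1 ≤ ‖Ψ t1 z - Ψ t1 z0‖ := ht1'
    linarith
  intro t ht
  exact gron z t ht (fun r hr => (hstay r ⟨hr.1, hr.2.le.trans ht.2⟩).le)

/-- time reversal -/
private theorem IsFlow.reverse {F : X → X} {Ψ : ℝ → X → X} (h : IsFlow F Ψ) :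
    IsFlow (fun x => - F x) (fun t x => Ψ (-t) x) where
  zero := fun z => by
    show Ψ (-0) z = z
    rw [neg_zero]
    exact h.zero z
  deriv := fun t z => by
    have h1 := (h.deriv (-t) z).scomp t (hasDerivAt_neg t)
    have h2 : (-1 : ℝ) • F (Ψ (-t) z) = - F (Ψ (-t) z) := by
      rw [neg_smul, one_smul]
    rw [h2] at h1
    exact h1

open Filter Topology in
/-- Joint continuity of the flow. Proof: fix `z0`, `T`; the trajectory of `z0` on `[-T, T]` is
compact; in finite dimension `F` is Lipschitz with some constant `L` on the closed `1`-thickening of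
a ball containing it; as long as the trajectory of `z` stays in the thickening, Gronwall gives
`‖Ψ t z - Ψ t z0‖ ≤ ‖z - z0‖ exp (L |t|)`, and for `‖z - z0‖ < exp (-L T)` it never leaves. Then
use `‖Ψ t z - Ψ t0 z0‖ ≤ ‖Ψ t z - Ψ t z0‖ + ‖Ψ t z0 - Ψ t0 z0‖`. -/
theorem IsFlow.continuous [FiniteDimensional ℝ X] {F : X → X} {Ψ : ℝ → X → X}
    (hF : ContDiff ℝ 1 F) (h : IsFlow F Ψ) : Continuous fun p : ℝ × X => Ψ p.1 p.2 := by
  rw [continuous_iff_continuousAt]
  rintro ⟨t0, z0⟩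
  obtain ⟨C1, hC1, δ1, hδ1, H1⟩ := near hF h z0 (|t0| + 1)
  obtain ⟨C2, hC2, δ2, hδ2, H2⟩ := near hF.neg h.reverse z0 (|t0| + 1)
  have hcont : Continuous fun t => Ψ t z0 :=
    continuous_iff_continuousAt.2 fun t => (h.deriv t z0).continuousAt
  unfold ContinuousAt
  rw [tendsto_iff_dist_tendsto_zero]
  have hlim : Tendsto (fun p : ℝ × X => (C1 + C2) * ‖p.2 - z0‖ + dist (Ψ p.1 z0) (Ψ t0 z0))
      (𝓝 (t0, z0)) (𝓝 0) := by
    have hc : Continuous fun p : ℝ × X =>
        (C1 + C2) * ‖p.2 - z0‖ + dist (Ψ p.1 z0) (Ψ t0 z0) :=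
      (continuous_const.mul (continuous_snd.sub continuous_const).norm).add
        ((hcont.comp continuous_fst).dist continuous_const)
    have := hc.tendsto (t0, z0)
    simpa using this
  refine squeeze_zero' (Eventually.of_forall fun _ => dist_nonneg) ?_ hlim
  have e1 : ∀ᶠ p : ℝ × X in 𝓝 (t0, z0), |p.1| < |t0| + 1 := by
    have : Tendsto (fun p : ℝ × X => |p.1|) (𝓝 (t0, z0)) (𝓝 |t0|) :=
      (continuous_fst.abs).tendsto (t0, z0)
    exact this.eventually_lt_const (by linarith)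
  have e2 : ∀ᶠ p : ℝ × X in 𝓝 (t0, z0), ‖p.2 - z0‖ < min δ1 δ2 := by
    have : Tendsto (fun p : ℝ × X => ‖p.2 - z0‖) (𝓝 (t0, z0)) (𝓝 ‖z0 - z0‖) :=
      ((continuous_snd.sub continuous_const).norm).tendsto (t0, z0)
    rw [sub_self, norm_zero] at this
    exact this.eventually_lt_const (lt_min hδ1 hδ2)
  filter_upwards [e1, e2] with p hp1 hp2
  have hmain : ‖Ψ p.1 p.2 - Ψ p.1 z0‖ ≤ (C1 + C2) * ‖p.2 - z0‖ := by
    have hn := norm_nonneg (p.2 - z0)
    rcases le_total 0 p.1 with hs | hs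
    · have := H1 p.2 (hp2.trans_le (min_le_left _ _)) p.1 ⟨hs, (abs_lt.1 hp1).2.le⟩
      nlinarith [mul_nonneg hC2.le hn]
    · have := H2 p.2 (hp2.trans_le (min_le_right _ _)) (-p.1)
        ⟨by linarith, by linarith [(abs_lt.1 hp1).1]⟩
      simp only [neg_neg] at this
      nlinarith [mul_nonneg hC1.le hn]
  calc dist (Ψ p.1 p.2) (Ψ t0 z0) ≤ dist (Ψ p.1 p.2) (Ψ p.1 z0) + dist (Ψ p.1 z0) (Ψ t0 z0) :=
        dist_triangle _ _ _
    _ ≤ (C1 + C2) * ‖p.2 - z0‖ + dist (Ψ p.1 z0) (Ψ t0 z0) := by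
        rw [dist_eq_norm (Ψ p.1 p.2)]
        linarith

end P219G
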