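import Mathlib.Algebra.Order.Star.Real
import Mathlib.Analysis.Calculus.SmoothSeries
import Mathlib.Analysis.SpecialFunctions.Integrals.Basic
import Vale.Agent.Lib.P219.Geo.FlowDefs

/-!
# P219: global existence for linear differential equations
-/

open scoped ContDiff

namespace P219G

variable {X : Type*} [NormedAddCommGroup X] [NormedSpace ℝ X]

/-- The terms of the Picard series `W = ∑ W_n`, `W_{n+1}(t) = ∫_0^t A W_n`. -/
private noncomputable def linIter (A : ℝ → X →L[ℝ] X) : ℕ → ℝ → (X →L[ℝ] X)
  | 0 => fun _ => ContinuousLinearMap.id ℝ X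
  | n + 1 => fun t => ∫ s in (0 : ℝ)..t, (A s).comp (linIter A n s)

private theorem linIter_zero (A : ℝ → X →L[ℝ] X) (t : ℝ) :
    linIter A 0 t = ContinuousLinearMap.id ℝ X := rfl

private theorem linIter_succ (A : ℝ → X →L[ℝ] X) (n : ℕ) (t : ℝ) :
    linIter A (n + 1) t = ∫ s in (0 : ℝ)..t, (A s).comp (linIter A n s) := rfl

private theorem linIter_cont [CompleteSpace X] {A : ℝ → X →L[ℝ] X} (hA : Continuous A) (n : ℕ) :
    Continuous (linIter A n) ∧
      ∀ t, HasDerivAt (linIter A (n + 1)) ((A t).comp (linIter A n t)) t := by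
  induction n with
  | zero =>
    have h0 : Continuous (linIter A 0) := continuous_const
    refine ⟨h0, fun t => ?_⟩
    have hc : Continuous fun s => (A s).comp (linIter A 0 s) := hA.clm_comp h0
    exact (hc.integral_hasStrictDerivAt 0 t).hasDerivAt
  | succ n ih =>
    have h0 : Continuous (linIter A (n + 1)) :=
      continuous_iff_continuousAt.2 fun t => (ih.2 t).continuousAt
    refine ⟨h0, fun t => ?_⟩
    have hc : Continuous fun s => (A s).comp (linIter A (n + 1) s) := hA.clm_comp h0
    exact (hc.integral_hasStrictDerivAt 0 t).hasDerivAt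

private theorem linIter_bound [CompleteSpace X] {A : ℝ → X →L[ℝ] X} (hA : Continuous A)
    {T M : ℝ} (hM : 0 ≤ M) (hb : ∀ s, |s| ≤ T → ‖A s‖ ≤ M) (n : ℕ) :
    ∀ t, |t| ≤ T → ‖linIter A n t‖ ≤ (M * |t|) ^ n / n.factorial := by
  induction n with
  | zero =>
    intro t _
    rw [linIter_zero]
    simpa using ContinuousLinearMap.norm_id_le
  | succ n ih =>
    intro t ht
    rw [linIter_succ]
    have hsub : ∀ s ∈ Set.uIoc 0 t, |s| ≤ |t| := by
      intro s hs
      rcases Set.mem_uIoc.1 hs with h | h
      · rw [abs_of_pos h.1, abs_of_nonneg (h.1.le.trans h.2)]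
        exact h.2
      · rw [abs_of_nonpos h.2, abs_of_neg (h.1.trans_le h.2)]
        linarith [h.1]
    have hc : Continuous fun s => (A s).comp (linIter A n s) :=
      hA.clm_comp (linIter_cont hA n).1
    calc ‖∫ s in (0 : ℝ)..t, (A s).comp (linIter A n s)‖
        ≤ ∫ s in Set.uIoc 0 t, ‖(A s).comp (linIter A n s)‖ :=
          intervalIntegral.norm_integral_le_integral_norm_uIoc
      _ ≤ ∫ s in Set.uIoc 0 t, M ^ (n + 1) / n.factorial * |s - 0| ^ n := by
          apply MeasureTheory.setIntegral_mono_on
          · exact (hc.norm.intervalIntegrable 0 t).def'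
          · exact (Continuous.intervalIntegrable (by fun_prop) 0 t).def'
          · exact measurableSet_uIoc
          · intro s hs
            have h1 := hsub s hs
            calc ‖(A s).comp (linIter A n s)‖ ≤ ‖A s‖ * ‖linIter A n s‖ :=
                  ContinuousLinearMap.opNorm_comp_le _ _
              _ ≤ M * ((M * |s|) ^ n / n.factorial) :=
                  mul_le_mul (hb s (h1.trans ht)) (ih s (h1.trans ht)) (norm_nonneg _) hM
              _ = M ^ (n + 1) / n.factorial * |s - 0| ^ n := by
                  rw [sub_zero, mul_pow]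
                  ring
      _ = M ^ (n + 1) / n.factorial * (|t - 0| ^ (n + 1) / (n + 1)) := by
          rw [MeasureTheory.integral_const_mul, integral_pow_abs_sub_uIoc]
      _ = (M * |t|) ^ (n + 1) / (n + 1).factorial := by
          rw [sub_zero, mul_pow, Nat.factorial_succ]
          push_cast
          field_simp

/-- Global existence for `W' = A(t) W`, `W(0) = id`. Proof: on a compact interval `[-T, T]` the
field `(t, W) ↦ A(t) W` is Lipschitz in `W` with constant `sup ‖A‖`; local solutions exist on
intervals of length depending only on this constant (Picard-Lindelof), glue them; or: the Picard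
iteration `W_{k+1}(t) = id + ∫_0^t A W_k` converges locally uniformly since
`‖W_{k+1} - W_k‖ ≤ (M |t|)^{k+1} / (k+1)!` and the limit solves the integral equation. -/
theorem exists_linear_flow [CompleteSpace X] (A : ℝ → X →L[ℝ] X) (hA : Continuous A) :
    ∃ W : ℝ → X →L[ℝ] X, W 0 = ContinuousLinearMap.id ℝ X ∧
      ∀ t, HasDerivAt W ((A t).comp (W t)) t := by
  have hbd : ∀ T : ℝ, ∃ M : ℝ, 0 ≤ M ∧ ∀ s, |s| ≤ T → ‖A s‖ ≤ M := by
    intro T
    obtain ⟨M, hM⟩ := (isCompact_Icc (a := -T) (b := T)).exists_bound_of_continuousOn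
      hA.continuousOn
    exact ⟨max M 0, le_max_right _ _, fun s hs =>
      (hM s (abs_le.1 hs)).trans (le_max_left _ _)⟩
  have hsum : ∀ t, Summable fun n => linIter A n t := by
    intro t
    obtain ⟨M, hM, hb⟩ := hbd |t|
    exact Summable.of_norm_bounded (Real.summable_pow_div_factorial (M * |t|))
      fun n => linIter_bound hA hM hb n t le_rfl
  refine ⟨fun t => ∑' n, linIter A n t, ?_, ?_⟩
  · show ∑' n, linIter A n 0 = _
    rw [tsum_eq_single 0]
    · rfl
    · intro n hn
      obtain ⟨m, rfl⟩ := Nat.exists_eq_succ_of_ne_zero hn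
      rw [Nat.succ_eq_add_one, linIter_succ, intervalIntegral.integral_same]
  · intro t
    obtain ⟨T, hT⟩ : ∃ T, T = |t| + 1 := ⟨_, rfl⟩
    have hT0 : 0 < T := by rw [hT]; positivity
    obtain ⟨M, hM, hb⟩ := hbd T
    have hu : Summable fun n : ℕ => M * ((M * T) ^ n / n.factorial) :=
      (Real.summable_pow_div_factorial (M * T)).mul_left M
    have hmem : t ∈ Metric.ball (0 : ℝ) T := by
      rw [Metric.mem_ball, Real.dist_eq, sub_zero, hT]
      linarith
    have key := hasDerivAt_tsum_of_isPreconnected (g := fun n => linIter A (n + 1))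
      (g' := fun n y => (A y).comp (linIter A n y)) (y₀ := t) (y := t) hu Metric.isOpen_ball
      (convex_ball (0 : ℝ) T).isPreconnected
      (fun n y _ => (linIter_cont hA n).2 y) (by
        intro n y hy
        rw [Metric.mem_ball, Real.dist_eq, sub_zero] at hy
        calc ‖(A y).comp (linIter A n y)‖ ≤ ‖A y‖ * ‖linIter A n y‖ :=
              ContinuousLinearMap.opNorm_comp_le _ _
          _ ≤ M * ((M * |y|) ^ n / n.factorial) :=
              mul_le_mul (hb y hy.le) (linIter_bound hA hM hb n y hy.le) (norm_nonneg _) hM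
          _ ≤ M * ((M * T) ^ n / n.factorial) := by
              apply mul_le_mul_of_nonneg_left _ hM
              apply div_le_div_of_nonneg_right _ (by positivity)
              apply pow_le_pow_left₀ (by positivity)
              exact mul_le_mul_of_nonneg_left hy.le hM) hmem
      ((summable_nat_add_iff 1).2 (hsum t)) hmem
    have e1 : (fun t => ∑' n, linIter A n t) =
        fun t => ContinuousLinearMap.id ℝ X + ∑' n, linIter A (n + 1) t := by
      funext s
      rw [(hsum s).tsum_eq_zero_add, linIter_zero]
    have e2 : (A t).comp (∑' n, linIter A n t) = ∑' n, (A t).comp (linIter A n t) := by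
      have h := (ContinuousLinearMap.compL ℝ X X X (A t)).map_tsum (hsum t)
      exact h
    have key2 : HasDerivAt (fun t => ∑' n, linIter A n t)
        ((A t).comp (∑' n, linIter A n t)) t := by
      rw [e1, e2]
      exact key.const_add _
    exact key2

end P219G
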