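import Vale.Agent.Lib.P219.Geo.FlowA
import Vale.Agent.Lib.P219.Geo.FlowB

/-!
# P219: differentiability of a flow in the initial point
-/

open scoped ContDiff

namespace P219G

variable {X : Type*} [NormedAddCommGroup X] [NormedSpace ℝ X]

/-- forward times -/
theorem FlowC_aux [FiniteDimensional ℝ X] {F : X → X} {Ψ : ℝ → X → X}
    (hF : ContDiff ℝ 1 F) (h : IsFlow F Ψ) (z : X) (W : ℝ → X →L[ℝ] X)
    (hW0 : W 0 = ContinuousLinearMap.id ℝ X)
    (hW : ∀ t, HasDerivAt W ((fderiv ℝ F (Ψ t z)).comp (W t)) t) {t : ℝ} (ht : 0 ≤ t) :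
    HasFDerivAt (Ψ t) (W t) z := by
  have hcont := IsFlow.continuous hF h
  have hFd : Differentiable ℝ F := hF.differentiable one_ne_zero
  have hDF : Continuous (fderiv ℝ F) := hF.continuous_fderiv one_ne_zero
  -- a large ball which contains all trajectories
  have hcpt : IsCompact ((fun p : ℝ × X => Ψ p.1 p.2) ''
      (Set.Icc (0:ℝ) t ×ˢ Metric.closedBall z 1)) :=
    (isCompact_Icc.prod (isCompact_closedBall z 1)).image hcont
  obtain ⟨R, hR⟩ := hcpt.isBounded.subset_closedBall 0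
  have hmem : ∀ s ∈ Set.Icc (0:ℝ) t, ∀ z' ∈ Metric.closedBall z 1,
      Ψ s z' ∈ Metric.closedBall (0:X) R := by
    intro s hs z' hz'
    exact hR ⟨(s, z'), ⟨hs, hz'⟩, rfl⟩
  have hBc : IsCompact (Metric.closedBall (0:X) R) := isCompact_closedBall 0 R
  have hBconv : Convex ℝ (Metric.closedBall (0:X) R) := convex_closedBall 0 R
  obtain ⟨L₀, hL₀⟩ := hBc.exists_bound_of_continuousOn hDF.continuousOn
  set L : ℝ := max L₀ 1 with hLdef
  have hL1 : 1 ≤ L := le_max_right _ _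
  have hLpos : 0 < L := by linarith
  have hL : ∀ x ∈ Metric.closedBall (0:X) R, ‖fderiv ℝ F x‖ ≤ L := fun x hx =>
    (hL₀ x hx).trans (le_max_left _ _)
  have hLip : ∀ x ∈ Metric.closedBall (0:X) R, ∀ y ∈ Metric.closedBall (0:X) R,
      ‖F y - F x‖ ≤ L * ‖y - x‖ := fun x hx y hy =>
    hBconv.norm_image_sub_le_of_norm_fderiv_le (fun x _ => hFd x) hL hx hy
  have hz1 : z ∈ Metric.closedBall z 1 := Metric.mem_closedBall_self zero_le_one
  -- Gronwall for the difference of two trajectories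
  have hdiff : ∀ z' ∈ Metric.closedBall z 1, ∀ s ∈ Set.Icc (0:ℝ) t,
      ‖Ψ s z' - Ψ s z‖ ≤ ‖z' - z‖ * Real.exp (L * t) := by
    intro z' hz' s hs
    have hG := norm_le_gronwallBound_of_norm_deriv_right_le (f := fun s => Ψ s z' - Ψ s z)
      (f' := fun s => F (Ψ s z') - F (Ψ s z)) (δ := ‖z' - z‖) (K := L) (ε := 0) (a := 0) (b := t)
      (fun s _ => ((h.deriv s z').sub (h.deriv s z)).continuousAt.continuousWithinAt)
      (fun s _ => ((h.deriv s z').sub (h.deriv s z)).hasDerivWithinAt)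
      (by rw [h.zero, h.zero])
      (fun s hs => by
        have hs' : s ∈ Set.Icc (0:ℝ) t := Set.Ico_subset_Icc_self hs
        rw [add_zero]
        exact hLip _ (hmem s hs' z hz1) _ (hmem s hs' z' hz'))
      s hs
    rw [gronwallBound_ε0, sub_zero] at hG
    refine hG.trans ?_
    refine mul_le_mul_of_nonneg_left (Real.exp_le_exp.mpr ?_) (norm_nonneg _)
    exact mul_le_mul_of_nonneg_left hs.2 hLpos.le
  rw [hasFDerivAt_iff_isLittleO, Asymptotics.isLittleO_iff]
  intro c hc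
  set E : ℝ := Real.exp (L * t) with hE
  have hEpos : 0 < E := Real.exp_pos _
  set ε : ℝ := c * L / (E * E) with hε
  have hεpos : 0 < ε := by positivity
  have huc : UniformContinuousOn (fderiv ℝ F) (Metric.closedBall (0:X) R) :=
    hBc.uniformContinuousOn_of_continuous hDF.continuousOn
  rw [Metric.uniformContinuousOn_iff] at huc
  obtain ⟨δ, hδ, hδ'⟩ := huc ε hεpos
  have hr : 0 < min 1 (δ / E) := lt_min one_pos (by positivity)
  filter_upwards [Metric.ball_mem_nhds z hr] with z' hz'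
  have hz'1 : z' ∈ Metric.closedBall z 1 :=
    Metric.ball_subset_closedBall (Metric.ball_subset_ball (min_le_left _ _) hz')
  have hz'2 : ‖z' - z‖ * E < δ := by
    have h1 : dist z' z < δ / E := (Metric.mem_ball.mp hz').trans_le (min_le_right _ _)
    rw [dist_eq_norm] at h1
    exact (lt_div_iff₀ hEpos).mp h1
  have hR' : ∀ s ∈ Set.Icc (0:ℝ) t,
      ‖F (Ψ s z') - F (Ψ s z) - fderiv ℝ F (Ψ s z) (Ψ s z' - Ψ s z)‖ ≤
        ε * (‖z' - z‖ * E) := by
    intro s hs
    have hd := hdiff z' hz'1 s hs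
    have hconv : Convex ℝ (Metric.closedBall (0:X) R ∩ Metric.ball (Ψ s z) δ) :=
      hBconv.inter (convex_ball _ _)
    have hy : Ψ s z ∈ Metric.closedBall (0:X) R ∩ Metric.ball (Ψ s z) δ :=
      ⟨hmem s hs z hz1, Metric.mem_ball_self hδ⟩
    have hy' : Ψ s z' ∈ Metric.closedBall (0:X) R ∩ Metric.ball (Ψ s z) δ := by
      refine ⟨hmem s hs z' hz'1, ?_⟩
      rw [Metric.mem_ball, dist_eq_norm]
      exact hd.trans_lt hz'2
    have hmv := hconv.norm_image_sub_le_of_norm_hasFDerivWithin_le' (f := F)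
      (f' := fun x => fderiv ℝ F x) (φ := fderiv ℝ F (Ψ s z)) (C := ε)
      (fun x _ => (hFd x).hasFDerivAt.hasFDerivWithinAt)
      (fun x hx => by
        have := hδ' x hx.1 (Ψ s z) hy.1 hx.2
        rw [dist_eq_norm] at this
        exact this.le) hy hy'
    exact hmv.trans (mul_le_mul_of_nonneg_left hd hεpos.le)
  have hWd : ∀ s, HasDerivAt (fun s => W s (z' - z))
      (fderiv ℝ F (Ψ s z) (W s (z' - z))) s := by
    intro s
    have h1 := (hW s).clm_apply (hasDerivAt_const s (z' - z))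
    simpa using h1
  have hG := norm_le_gronwallBound_of_norm_deriv_right_le
    (f := fun s => Ψ s z' - Ψ s z - W s (z' - z))
    (f' := fun s => F (Ψ s z') - F (Ψ s z) - fderiv ℝ F (Ψ s z) (W s (z' - z)))
    (δ := 0) (K := L) (ε := ε * (‖z' - z‖ * E)) (a := 0) (b := t)
    (fun s _ => (((h.deriv s z').sub (h.deriv s z)).sub (hWd s)).continuousAt.continuousWithinAt)
    (fun s _ => (((h.deriv s z').sub (h.deriv s z)).sub (hWd s)).hasDerivWithinAt)
    (by
      rw [h.zero, h.zero, hW0]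
      simp)
    (fun s hs => by
      have hs' : s ∈ Set.Icc (0:ℝ) t := Set.Ico_subset_Icc_self hs
      have h1 : F (Ψ s z') - F (Ψ s z) - fderiv ℝ F (Ψ s z) (W s (z' - z)) =
          fderiv ℝ F (Ψ s z) (Ψ s z' - Ψ s z - W s (z' - z)) +
          (F (Ψ s z') - F (Ψ s z) - fderiv ℝ F (Ψ s z) (Ψ s z' - Ψ s z)) := by
        rw [map_sub (fderiv ℝ F (Ψ s z)) (Ψ s z' - Ψ s z) (W s (z' - z))]
        abel
      rw [h1]
      refine (norm_add_le _ _).trans (add_le_add ?_ (hR' s hs'))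
      refine ((fderiv ℝ F (Ψ s z)).le_opNorm _).trans ?_
      exact mul_le_mul_of_nonneg_right (hL _ (hmem s hs' z hz1)) (norm_nonneg _))
    t ⟨ht, le_refl t⟩
  rw [gronwallBound_of_K_ne_0 hLpos.ne', sub_zero] at hG
  simp only [zero_mul, zero_add] at hG
  refine hG.trans ?_
  have h2 : ε * (‖z' - z‖ * E) / L * (Real.exp (L * t) - 1) ≤
      ε * (‖z' - z‖ * E) / L * E := by
    refine mul_le_mul_of_nonneg_left ?_ (by positivity)
    linarith
  refine h2.trans (le_of_eq ?_)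
  rw [hε]
  field_simp

/-- time reversal -/
theorem FlowC_reverse {F : X → X} {Ψ : ℝ → X → X} (h : IsFlow F Ψ) :
    IsFlow (fun x => -F x) (fun s => Ψ (-s)) where
  zero := fun z => by
    simp only [neg_zero]
    exact h.zero z
  deriv := fun t z => by
    have h1 : HasDerivAt (fun s => Ψ (-s) z) ((-1 : ℝ) • F (Ψ (-t) z)) t :=
      (h.deriv (-t) z).scomp t (hasDerivAt_neg t)
    rw [neg_one_smul] at h1
    exact h1

/-- If `W` solves the linearised equation along the trajectory of `z`, then `W t` is the derivative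
of `Ψ t` at `z`. Proof: let `d(t) = Ψ t z' - Ψ t z - W t (z' - z)`; `d(0) = 0` and
`d' = F(Ψ t z') - F(Ψ t z) - DF(Ψ t z)(W t (z'-z)) = DF(Ψ t z) d + R`, with
`‖R‖ ≤ ε(‖z'-z‖) ‖Ψ t z' - Ψ t z‖ ≤ ε' ‖z' - z‖` uniformly on `[-T, T]` (uniform continuity of `DF` on a
compact neighbourhood of the trajectory, joint continuity `IsFlow.continuous`, and the Gronwall bound
`‖Ψ t z' - Ψ t z‖ ≤ C ‖z' - z‖`). Gronwall gives `‖d(t)‖ ≤ C ε' ‖z' - z‖`. -/
theorem IsFlow.hasFDerivAt_of_linear [FiniteDimensional ℝ X] {F : X → X} {Ψ : ℝ → X → X}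
    (hF : ContDiff ℝ 1 F) (h : IsFlow F Ψ) (z : X) (W : ℝ → X →L[ℝ] X)
    (hW0 : W 0 = ContinuousLinearMap.id ℝ X)
    (hW : ∀ t, HasDerivAt W ((fderiv ℝ F (Ψ t z)).comp (W t)) t) (t : ℝ) :
    HasFDerivAt (Ψ t) (W t) z := by
  rcases le_total 0 t with ht | ht
  · exact FlowC_aux hF h z W hW0 hW ht
  · have h1 := FlowC_aux (F := fun x => -F x) (Ψ := fun s => Ψ (-s)) hF.neg (FlowC_reverse h) z
      (fun s => W (-s)) (by simp only [neg_zero]; exact hW0)
      (fun s => by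
        have h2 : HasDerivAt (fun s => W (-s))
            ((-1 : ℝ) • ((fderiv ℝ F (Ψ (-s) z)).comp (W (-s)))) s :=
          (hW (-s)).scomp s (hasDerivAt_neg s)
        have h3 : fderiv ℝ (fun x => -F x) (Ψ (-s) z) = -fderiv ℝ F (Ψ (-s) z) := fderiv_fun_neg
        rw [h3]
        rw [neg_one_smul] at h2
        rw [ContinuousLinearMap.neg_comp]
        exact h2) (t := -t) (by linarith)
    simpa using h1

/-- existence of the derivative, with the variational equation -/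
theorem FlowC_exists [FiniteDimensional ℝ X] {F : X → X} {Ψ : ℝ → X → X}
    (hF : ContDiff ℝ 1 F) (h : IsFlow F Ψ) (z : X) :
    ∃ W : ℝ → X →L[ℝ] X, (∀ t, HasFDerivAt (Ψ t) (W t) z) ∧
      ∀ t, HasDerivAt W ((fderiv ℝ F (Ψ t z)).comp (W t)) t := by
  have : CompleteSpace X := FiniteDimensional.complete ℝ X
  have hDF : Continuous (fderiv ℝ F) := hF.continuous_fderiv one_ne_zero
  have hc : Continuous fun t => Ψ t z :=
    continuous_iff_continuousAt.mpr fun t => (h.deriv t z).continuousAt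
  obtain ⟨W, hW0, hW⟩ := exists_linear_flow (fun t => fderiv ℝ F (Ψ t z)) (hDF.comp hc)
  exact ⟨W, fun t => IsFlow.hasFDerivAt_of_linear hF h z W hW0 hW t, hW⟩

/-- The flow is differentiable in the initial point (from `exists_linear_flow` and
`IsFlow.hasFDerivAt_of_linear`). -/
theorem IsFlow.differentiableAt [FiniteDimensional ℝ X] {F : X → X} {Ψ : ℝ → X → X}
    (hF : ContDiff ℝ 1 F) (h : IsFlow F Ψ) (z : X) (t : ℝ) : DifferentiableAt ℝ (Ψ t) z := by
  obtain ⟨W, hW⟩ := FlowC_exists hF h z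
  exact (hW.1 t).differentiableAt

/-- The variational equation. -/
theorem IsFlow.hasDerivAt_fderiv [FiniteDimensional ℝ X] {F : X → X} {Ψ : ℝ → X → X}
    (hF : ContDiff ℝ 1 F) (h : IsFlow F Ψ) (z : X) (t : ℝ) :
    HasDerivAt (fun s => fderiv ℝ (Ψ s) z)
      ((fderiv ℝ F (Ψ t z)).comp (fderiv ℝ (Ψ t) z)) t := by
  obtain ⟨W, hW, hW'⟩ := FlowC_exists hF h z
  have h1 : (fun s => fderiv ℝ (Ψ s) z) = W := funext fun s => (hW s).fderiv
  rw [h1, (hW t).fderiv]
  exact hW' t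

/-- The tangent flow: the flow of the field `(z, ζ) ↦ (F z, DF(z) ζ)`. -/
theorem IsFlow.tangent [FiniteDimensional ℝ X] {F : X → X} {Ψ : ℝ → X → X}
    (hF : ContDiff ℝ 1 F) (h : IsFlow F Ψ) :
    IsFlow (fun p : X × X => (F p.1, fderiv ℝ F p.1 p.2))
      (fun t p => (Ψ t p.1, fderiv ℝ (Ψ t) p.1 p.2)) := by
  refine ⟨fun p => ?_, fun t p => ?_⟩
  · have h0 : Ψ 0 = id := funext h.zero
    rw [h0, fderiv_id]
    rfl
  · have h1 := (h.hasDerivAt_fderiv hF p.1 t).clm_apply (hasDerivAt_const t p.2)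
    have h2 : HasDerivAt (fun s => fderiv ℝ (Ψ s) p.1 p.2)
        (fderiv ℝ F (Ψ t p.1) (fderiv ℝ (Ψ t) p.1 p.2)) t := by
      simpa using h1
    exact (h.deriv t p.1).prodMk h2

end P219G
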