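import Mathlib.Analysis.Calculus.ContDiff.FiniteDimension
import Mathlib.Analysis.Calculus.FDeriv.Partial
import Vale.Agent.Lib.P219.Geo.FlowC

/-!
# P219: smoothness of the flow of a smooth vector field
-/

open scoped ContDiff

namespace P219G

universe u

/-- Induction on the order: for every finite dimensional `X : Type u`, every smooth complete field
and its flow. `k = 0` is `IsFlow.continuous`. Step: the partial derivative of `(t, z) ↦ Ψ t z` in
`t` is `F (Ψ t z)`, the partial derivative in `z` applied to `ζ` is the second component of the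
tangent flow (`IsFlow.tangent`), which is the flow of a smooth field on `X × X`, hence of class
`C^k` jointly in `(t, z, ζ)` by the induction hypothesis. Both partial derivatives being continuous,
the map is (Frechet) differentiable (`HasFDerivAt` of a function of two variables with continuous
partial derivatives; Mathlib has `hasStrictFDerivAt...coprod`/ or use the mean value inequality) and
its derivative is `C^k` (in finite dimension a family of linear maps is `C^k` as soon as its values on
the vectors are: `contDiff_clm_apply_iff`). -/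
theorem IsFlow.contDiff_nat (k : ℕ) : ∀ (X : Type u) [NormedAddCommGroup X] [NormedSpace ℝ X]
    [FiniteDimensional ℝ X] (F : X → X) (Ψ : ℝ → X → X), ContDiff ℝ ∞ F → IsFlow F Ψ →
    ContDiff ℝ k (fun p : ℝ × X => Ψ p.1 p.2) := by
  induction k with
  | zero =>
    intro X _ _ _ F Ψ hF h
    have h0 := IsFlow.continuous (hF.of_le (by exact_mod_cast le_top)) h
    exact_mod_cast contDiff_zero.mpr h0
  | succ k ih =>
    intro X _ _ _ F Ψ hF h
    have hF1 : ContDiff ℝ 1 F := hF.of_le (by exact_mod_cast le_top)
    have hdF : ContDiff ℝ ∞ (fderiv ℝ F) := hF.fderiv_right (by simp)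
    have hG : ContDiff ℝ ∞ (fun p : X × X => (F p.1, fderiv ℝ F p.1 p.2)) :=
      (hF.comp contDiff_fst).prodMk ((hdF.comp contDiff_fst).clm_apply contDiff_snd)
    have ihX := ih X F Ψ hF h
    have ihT := ih (X × X) _ _ hG (IsFlow.tangent hF1 h)
    have hpartX : ContDiff ℝ k (fun p : ℝ × X => fderiv ℝ (Ψ p.1) p.2) := by
      rw [contDiff_clm_apply_iff]
      intro ζ
      have h1 : ContDiff ℝ k (fun p : ℝ × X => ((p.1, (p.2, ζ)) : ℝ × (X × X))) :=
        contDiff_fst.prodMk (contDiff_snd.prodMk contDiff_const)
      exact contDiff_snd.comp (ihT.comp h1)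
    have hFk : ContDiff ℝ k F := hF.of_le (by exact_mod_cast le_top)
    have hpartT : ContDiff ℝ k (fun p : ℝ × X =>
        ContinuousLinearMap.toSpanSingleton ℝ (F (Ψ p.1 p.2))) := by
      rw [contDiff_clm_apply_iff]
      intro τ
      have h2 : ContDiff ℝ k (fun p : ℝ × X => τ • F (Ψ p.1 p.2)) :=
        contDiff_const.smul (hFk.comp ihX)
      simpa [ContinuousLinearMap.toSpanSingleton_apply] using h2
    have hcast : ((k + 1 : ℕ) : WithTop ℕ∞) = (k : WithTop ℕ∞) + 1 := by push_cast; rfl
    rw [hcast, contDiff_succ_iff_hasFDerivAt]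
    refine ⟨fun p => (ContinuousLinearMap.toSpanSingleton ℝ (F (Ψ p.1 p.2))).coprod
      (fderiv ℝ (Ψ p.1) p.2), ?_, ?_⟩
    · rw [contDiff_clm_apply_iff]
      intro v
      have h3 := (hpartT.clm_apply (contDiff_const (c := v.1))).add
        (hpartX.clm_apply (contDiff_const (c := v.2)))
      simpa [ContinuousLinearMap.coprod_apply] using h3
    · intro p
      have h4 := hasStrictFDerivAt_uncurry_coprod (𝕜 := ℝ) (u := p) (f := Ψ)
        (f₁ := fun t z => ContinuousLinearMap.toSpanSingleton ℝ (F (Ψ t z)))
        (f₂ := fun t z => fderiv ℝ (Ψ t) z)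
        (Filter.Eventually.of_forall fun v => (h.deriv v.1 v.2).hasFDerivAt)
        (Filter.Eventually.of_forall fun v => (IsFlow.differentiableAt hF1 h v.2 v.1).hasFDerivAt)
        (hpartT.continuous.continuousAt) (hpartX.continuous.continuousAt)
      exact h4.hasFDerivAt

/-- Smoothness of the flow. -/
theorem IsFlow.contDiff {X : Type u} [NormedAddCommGroup X] [NormedSpace ℝ X]
    [FiniteDimensional ℝ X] {F : X → X} {Ψ : ℝ → X → X} (hF : ContDiff ℝ ∞ F)
    (h : IsFlow F Ψ) : ContDiff ℝ ∞ (fun p : ℝ × X => Ψ p.1 p.2) := by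
  rw [contDiff_infty]
  intro k
  exact IsFlow.contDiff_nat k X F Ψ hF h

end P219G
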