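import Mathlib.Algebra.Order.Star.Real
import Mathlib.Analysis.Calculus.ContDiff.RCLike
import Mathlib.Analysis.Calculus.InverseFunctionTheorem.FDeriv
import Mathlib.Analysis.InnerProductSpace.Basic
import Mathlib.Analysis.Normed.Module.FiniteDimension
import Mathlib.Topology.IsLocalHomeomorph

/-!
# P219: lifting of `C^1` paths through a local diffeomorphism which is expanding over compact sets
-/

open Set Filter Topology

namespace P219G

variable {V : Type*} [NormedAddCommGroup V] [NormedSpace ℝ V] [FiniteDimensional ℝ V]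

/-- `f` is expanding over compact sets of the target. -/
def ExpandingOverCompacts (f : V → V) : Prop :=
  ∀ K : Set V, IsCompact K → ∃ c > 0, ∀ v, f v ∈ K → ∀ b, c * ‖b‖ ≤ ‖fderiv ℝ f v b‖

/-- Inverse function theorem: `f` is a local homeomorphism (the derivative is injective, hence
invertible; `ContDiffAt.toOpenPartialHomeomorph` or `HasStrictFDerivAt.toOpenPartialHomeomorph`). -/
theorem expanding_isLocalHomeomorph (f : V → V) (hf : ContDiff ℝ 1 f)
    (hexp : ExpandingOverCompacts f) : IsLocalHomeomorph f := by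
  have : CompleteSpace V := FiniteDimensional.complete ℝ V
  intro x
  obtain ⟨c, hc, hcb⟩ := hexp {f x} isCompact_singleton
  have hinj : Function.Injective (fderiv ℝ f x) := by
    rw [injective_iff_map_eq_zero]
    intro b hb
    have h1 := hcb x rfl b
    rw [hb, norm_zero] at h1
    have h2 : ‖b‖ ≤ 0 := by
      by_contra hcon
      have : 0 < c * ‖b‖ := mul_pos hc (not_le.1 hcon)
      linarith
    exact norm_le_zero_iff.1 h2
  let A : V ≃L[ℝ] V := (LinearEquiv.ofInjectiveEndo (fderiv ℝ f x).toLinearMap hinj).toContinuousLinearEquiv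
  have hA : HasStrictFDerivAt f (A : V →L[ℝ] V) x := by
    have h1 := (hf.contDiffAt (x := x)).hasStrictFDerivAt (by norm_num)
    have h2 : (A : V →L[ℝ] V) = fderiv ℝ f x := by
      ext b
      rfl
    rw [h2]
    exact h1
  exact ⟨hA.toOpenPartialHomeomorph f, hA.mem_toOpenPartialHomeomorph_source,
    (hA.toOpenPartialHomeomorph_coe).symm⟩

/-- a continuous lift on `[0, s]` -/
private def IsLift (f : V → V) (γ : ℝ → V) (v0 : V) (s : ℝ) (Γ : ℝ → V) : Prop :=
  ContinuousOn Γ (Icc 0 s) ∧ Γ 0 = v0 ∧ ∀ t ∈ Icc (0 : ℝ) s, f (Γ t) = γ t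

omit [NormedSpace ℝ V] [FiniteDimensional ℝ V] in
private theorem IsLift.mono {f : V → V} {γ : ℝ → V} {v0 : V} {s s' : ℝ} {Γ : ℝ → V}
    (h : IsLift f γ v0 s Γ) (hs : s' ≤ s) : IsLift f γ v0 s' Γ :=
  ⟨h.1.mono (Icc_subset_Icc_right hs), h.2.1, fun t ht => h.2.2 t ⟨ht.1, ht.2.trans hs⟩⟩

omit [NormedSpace ℝ V] [FiniteDimensional ℝ V] in
private theorem IsLift.unique {f : V → V} (hf : IsLocalHomeomorph f) {γ : ℝ → V} {v0 : V} {s : ℝ}
    {Γ Γ' : ℝ → V} (h : IsLift f γ v0 s Γ) (h' : IsLift f γ v0 s Γ') {t : ℝ}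
    (ht : t ∈ Icc 0 s) : Γ t = Γ' t := by
  have hs : IsPreconnected (Icc (0 : ℝ) s) := isPreconnected_Icc
  exact (T2Space.isSeparatedMap f).eqOn_of_comp_eqOn hf.isLocallyInjective hs h.1 h'.1
    (fun r hr => (h.2.2 r hr).trans (h'.2.2 r hr).symm) (left_mem_Icc.2 (ht.1.trans ht.2))
    (h.2.1.trans h'.2.1.symm) ht

omit [NormedSpace ℝ V] [FiniteDimensional ℝ V] in
/-- a function on an interval that is pointwise Lipschitz is Lipschitz -/
private theorem lip_of_local {s M : ℝ} {Γ : ℝ → V} (hM : 0 ≤ M) (hc : ContinuousOn Γ (Icc 0 s))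
    (hl : ∀ t0 ∈ Icc 0 s, ∀ᶠ t in 𝓝[Icc 0 s] t0, ‖Γ t - Γ t0‖ ≤ M * |t - t0|) :
    LipschitzOnWith (M + 1).toNNReal Γ (Icc 0 s) := by
  have key : ∀ a ∈ Icc 0 s, ∀ b ∈ Icc 0 s, a ≤ b → ‖Γ b - Γ a‖ ≤ (M + 1) * (b - a) := by
    intro a ha b hb hab
    have h := image_norm_le_of_liminf_right_slope_norm_lt_deriv_boundary
      (f := fun t => Γ t - Γ a) (f' := fun _ => M) (a := a) (b := b)
      (B := fun t => (M + 1) * (t - a)) (B' := fun _ => M + 1)
      ((hc.mono (Icc_subset_Icc ha.1 hb.2)).sub continuousOn_const) ?_ (by simp)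
      (by fun_prop) ?_ (fun _ _ _ => by linarith)
    · exact h (right_mem_Icc.2 hab)
    · intro x hx r hr
      have hxs : x ∈ Icc 0 s := ⟨ha.1.trans hx.1, hx.2.le.trans hb.2⟩
      have hle : 𝓝[>] x ≤ 𝓝[Icc 0 s] x := by
        apply nhdsWithin_le_of_mem
        have : Ioc x b ∈ 𝓝[>] x := Ioc_mem_nhdsGT hx.2
        exact mem_of_superset this fun z hz => ⟨hxs.1.trans hz.1.le, hz.2.trans hb.2⟩
      have hev := (hl x hxs).filter_mono hle
      have hpos : ∀ᶠ z in 𝓝[>] x, x < z := self_mem_nhdsWithin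
      refine ((hev.and hpos).mono fun z hz => ?_).frequently
      obtain ⟨hz1, hz2⟩ := hz
      have hzx : 0 < z - x := sub_pos.2 hz2
      rw [abs_of_pos hzx] at hz1
      rw [slope_def_field, Function.comp_apply, Function.comp_apply]
      have h3 : ‖Γ z - Γ a‖ - ‖Γ x - Γ a‖ ≤ M * (z - x) := by
        have h4 := norm_sub_norm_le (Γ z - Γ a) (Γ x - Γ a)
        have h5 : Γ z - Γ a - (Γ x - Γ a) = Γ z - Γ x := by abel
        rw [h5] at h4
        exact h4.trans hz1
      rw [div_lt_iff₀ hzx]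
      have := mul_lt_mul_of_pos_right hr hzx
      linarith
    · intro x _
      have h1 : HasDerivAt (fun t : ℝ => (M + 1) * (t - a)) ((M + 1) * 1) x :=
        ((hasDerivAt_id x).sub_const a).const_mul (M + 1)
      rw [mul_one] at h1
      exact h1.hasDerivWithinAt
  refine LipschitzOnWith.of_dist_le_mul fun x hx y hy => ?_
  rw [Real.coe_toNNReal _ (by linarith)]
  rcases le_total x y with hxy | hxy
  · have := key x hx y hy hxy
    rw [dist_comm, dist_comm x y, dist_eq_norm, Real.dist_eq, abs_of_nonneg (sub_nonneg.2 hxy)]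
    exact this
  · have := key y hy x hx hxy
    rw [dist_eq_norm, Real.dist_eq, abs_of_nonneg (sub_nonneg.2 hxy)]
    exact this

omit [FiniteDimensional ℝ V] in
private theorem path_lip (γ : ℝ → V) (hγ : ContDiff ℝ 1 γ) :
    ∃ L : ℝ, 0 ≤ L ∧ ∀ t ∈ Icc (0 : ℝ) 1, ∀ t' ∈ Icc (0 : ℝ) 1, ‖γ t - γ t'‖ ≤ L * |t - t'| := by
  have hc : Continuous fun x => ‖fderiv ℝ γ x‖ :=
    continuous_norm.comp (hγ.continuous_fderiv (by norm_num))
  obtain ⟨C, hC⟩ := (isCompact_Icc (a := (0 : ℝ)) (b := 1)).exists_bound_of_continuousOn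
    hc.continuousOn
  have hlip : LipschitzOnWith C.toNNReal γ (Icc 0 1) := by
    refine Convex.lipschitzOnWith_of_nnnorm_fderiv_le (𝕜 := ℝ)
      (fun x _ => (hγ.differentiable (by norm_num)).differentiableAt) (fun x hx => ?_)
      (convex_Icc 0 1)
    have h1 := hC x hx
    rw [norm_norm] at h1
    rw [← NNReal.coe_le_coe, coe_nnnorm]
    exact h1.trans (Real.le_coe_toNNReal C)
  refine ⟨C.toNNReal, C.toNNReal.coe_nonneg, fun t ht t' ht' => ?_⟩
  have := hlip.dist_le_mul t ht t' ht'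
  rwa [dist_eq_norm, Real.dist_eq] at this

omit [FiniteDimensional ℝ V] in
private theorem lift_lip (f : V → V) (hf : ContDiff ℝ 1 f) (hexp : ExpandingOverCompacts f)
    (γ : ℝ → V) (hγ : ContDiff ℝ 1 γ) (v0 : V) :
    ∃ M : NNReal, ∀ s ≤ 1, ∀ Γ, IsLift f γ v0 s Γ → LipschitzOnWith M Γ (Icc 0 s) := by
  obtain ⟨L, hL0, hL⟩ := path_lip γ hγ
  obtain ⟨c, hc, hcb⟩ := hexp (γ '' Icc 0 1) (isCompact_Icc.image hγ.continuous)
  refine ⟨(L / (c / 2) + 1).toNNReal, fun s hs Γ hΓ => ?_⟩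
  refine lip_of_local (by positivity) hΓ.1 fun t0 ht0 => ?_
  have ht01 : t0 ∈ Icc (0 : ℝ) 1 := ⟨ht0.1, ht0.2.trans hs⟩
  have hd : HasFDerivAt f (fderiv ℝ f (Γ t0)) (Γ t0) :=
    (hf.differentiable (by norm_num)).differentiableAt.hasFDerivAt
  have h1 := (hd.isLittleO).def (half_pos hc)
  have hΓc : Tendsto Γ (𝓝[Icc 0 s] t0) (𝓝 (Γ t0)) := hΓ.1 t0 ht0
  have h2 := hΓc.eventually h1
  filter_upwards [h2, self_mem_nhdsWithin] with t ht1 ht2
  have ht21 : t ∈ Icc (0 : ℝ) 1 := ⟨ht2.1, ht2.2.trans hs⟩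
  have h3 := hcb (Γ t0) ⟨t0, ht01, (hΓ.2.2 t0 ht0).symm⟩ (Γ t - Γ t0)
  have h4 : ‖fderiv ℝ f (Γ t0) (Γ t - Γ t0)‖ ≤ ‖f (Γ t) - f (Γ t0)‖ + c / 2 * ‖Γ t - Γ t0‖ := by
    have h5 : fderiv ℝ f (Γ t0) (Γ t - Γ t0) = (f (Γ t) - f (Γ t0)) -
      (f (Γ t) - f (Γ t0) - fderiv ℝ f (Γ t0) (Γ t - Γ t0)) := by abel
    rw [h5]
    refine (norm_sub_le _ _).trans ?_
    gcongr
  rw [hΓ.2.2 t ht2, hΓ.2.2 t0 ht0] at h4
  have h6 := hL t ht21 t0 ht01
  rw [div_mul_eq_mul_div, le_div_iff₀ (half_pos hc)]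
  linarith

/-- Path lifting. Proof: let `S` be the set of `s ∈ [0,1]` such that a continuous lift `Γ` with
`Γ 0 = v0` exists on `[0, s]`. Lifts are unique (local injectivity, connectedness), so they agree on
common intervals. A lift is locally `g ∘ γ` with a local inverse `g` of `f` (`C^1`), so it is `C^1` with
`‖Γ'‖ ≤ ‖γ'‖ / c` where `c` is the constant of the compact set `γ [0,1]`; hence it is Lipschitz with a
constant independent of `s`. `S` is open in `[0,1]` (extend by a local inverse at `Γ s`) and closed (if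
`s_k ↑ s`, the Lipschitz bound gives a limit of `Γ` at `s`, `f` of the limit is `γ s`). Alternatively
solve the differential equation `Γ' = (Df(Γ))^{-1} γ'`. -/
theorem exists_lift (f : V → V) (hf : ContDiff ℝ 1 f) (hexp : ExpandingOverCompacts f)
    (γ : ℝ → V) (hγ : ContDiff ℝ 1 γ) (v0 : V) (h0 : f v0 = γ 0) :
    ∃ Γ : ℝ → V, ContinuousOn Γ (Icc 0 1) ∧ Γ 0 = v0 ∧ ∀ s ∈ Icc (0 : ℝ) 1, f (Γ s) = γ s := by
  classical
  have hloc := expanding_isLocalHomeomorph f hf hexp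
  obtain ⟨M, hM⟩ := lift_lip f hf hexp γ hγ v0
  -- the universal candidate
  let G : ℝ → V := fun s => if h : ∃ Γ, IsLift f γ v0 s Γ then h.choose s else v0
  have hG : ∀ s Γ, IsLift f γ v0 s Γ → ∀ t ∈ Icc 0 s, G t = Γ t := by
    intro s Γ hΓ t ht
    have hex : ∃ Γ, IsLift f γ v0 t Γ := ⟨Γ, hΓ.mono ht.2⟩
    have h1 : G t = hex.choose t := by
      simp only [G]
      rw [dif_pos hex]
    rw [h1]
    exact hex.choose_spec.unique hloc (hΓ.mono ht.2) (right_mem_Icc.2 ht.1)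
  have hG' : ∀ s, 0 ≤ s → (∃ Γ, IsLift f γ v0 s Γ) → IsLift f γ v0 s G := by
    rintro s hs ⟨Γ, hΓ⟩
    refine ⟨hΓ.1.congr fun t ht => hG s Γ hΓ t ht, ?_, fun t ht => ?_⟩
    · rw [hG s Γ hΓ 0 (left_mem_Icc.2 hs), hΓ.2.1]
    · rw [hG s Γ hΓ t ht, hΓ.2.2 t ht]
  set S : Set ℝ := {s | s ∈ Icc (0 : ℝ) 1 ∧ ∃ Γ, IsLift f γ v0 s Γ} with hS
  have h0S : (0 : ℝ) ∈ S := by
    refine ⟨left_mem_Icc.2 zero_le_one, fun _ => v0, continuousOn_const, rfl, fun t ht => ?_⟩
    have : t = 0 := le_antisymm ht.2 ht.1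
    rw [this, h0]
  have hbdd : BddAbove S := ⟨1, fun s hs => hs.1.2⟩
  set σ := sSup S with hσ
  have hσ0 : 0 ≤ σ := le_csSup hbdd h0S
  have hσ1 : σ ≤ 1 := csSup_le ⟨0, h0S⟩ fun s hs => hs.1.2
  have hlt : ∀ t, 0 ≤ t → t < σ → IsLift f γ v0 t G := by
    intro t ht0 ht
    obtain ⟨s, hs, hts⟩ := exists_lt_of_lt_csSup ⟨0, h0S⟩ ht
    exact (hG' s hs.1.1 hs.2).mono hts.le
  -- the lift exists on the closed interval
  have hσlift : ∃ Γ, IsLift f γ v0 σ Γ := by
    rcases hσ0.eq_or_lt with h | hpos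
    · rw [← h]
      exact h0S.2
    · have hlip : LipschitzOnWith M G (Ico 0 σ) := by
        refine LipschitzOnWith.of_dist_le_mul fun x hx y hy => ?_
        have hm : max x y < σ := max_lt hx.2 hy.2
        have hm0 : 0 ≤ max x y := hx.1.trans (le_max_left _ _)
        exact (hM (max x y) (hm.le.trans hσ1) G (hlt _ hm0 hm)).dist_le_mul x
          ⟨hx.1, le_max_left _ _⟩ y ⟨hy.1, le_max_right _ _⟩
      obtain ⟨g, hg1, hg2⟩ := hlip.extend_finite_dimension
      have hgc : Continuous g := hg1.continuous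
      refine ⟨g, hgc.continuousOn, ?_, fun t ht => ?_⟩
      · rw [← hg2 ⟨le_rfl, hpos⟩]
        exact (hlt 0 le_rfl hpos).2.1
      · have hclos : Icc 0 σ ⊆ {t | f (g t) = γ t} := by
          rw [← closure_Ico hpos.ne]
          refine closure_minimal (fun r hr => ?_) (isClosed_eq (hf.continuous.comp hgc)
            hγ.continuous)
          show f (g r) = γ r
          rw [← hg2 hr]
          exact (hlt r hr.1 hr.2).2.2 r (right_mem_Icc.2 hr.1)
        exact hclos ht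
  have hGσ : IsLift f γ v0 σ G := hG' σ hσ0 hσlift
  have hσeq : σ = 1 := by
    by_contra hne
    have hσ1' : σ < 1 := lt_of_le_of_ne hσ1 hne
    obtain ⟨e, he1, he2⟩ := hloc (G σ)
    have hfe : ∀ x, f x = e x := fun x => by rw [he2]
    have hfG : f (G σ) = γ σ := hGσ.2.2 σ (right_mem_Icc.2 hσ0)
    have htgt : γ σ ∈ e.target := by
      rw [← hfG, hfe]
      exact e.map_source he1
    have hev : ∀ᶠ t in 𝓝 σ, γ t ∈ e.target :=
      hγ.continuous.continuousAt.eventually_mem (e.open_target.mem_nhds htgt)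
    obtain ⟨δ, hδ, hδ'⟩ := Metric.eventually_nhds_iff.1 hev
    set σ' := min (σ + δ / 2) 1 with hσ'
    have hσσ' : σ < σ' := lt_min (by linarith) hσ1'
    have htarget : ∀ t ∈ Icc σ σ', γ t ∈ e.target := by
      intro t ht
      apply hδ'
      rw [Real.dist_eq, abs_of_nonneg (by linarith [ht.1])]
      have : t ≤ σ + δ / 2 := ht.2.trans (min_le_left _ _)
      linarith
    have hlift' : IsLift f γ v0 σ' (fun t => if t ≤ σ then G t else e.symm (γ t)) := by
      have hval : ∀ t ∈ Icc σ σ', (if t ≤ σ then G t else e.symm (γ t)) = e.symm (γ t) := by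
        intro t ht
        by_cases htσ : t ≤ σ
        · have : t = σ := le_antisymm htσ ht.1
          rw [if_pos htσ, this, ← hfG, hfe, e.left_inv he1]
        · rw [if_neg htσ]
      have hval2 : ∀ t ∈ Icc 0 σ, (if t ≤ σ then G t else e.symm (γ t)) = G t := by
        intro t ht
        rw [if_pos ht.2]
      have hun : Icc 0 σ' = Icc 0 σ ∪ Icc σ σ' := (Icc_union_Icc_eq_Icc hσ0 hσσ'.le).symm
      refine ⟨?_, ?_, fun t ht => ?_⟩
      · rw [hun]
        refine ContinuousOn.union_of_isClosed ?_ ?_ isClosed_Icc isClosed_Icc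
        · exact hGσ.1.congr hval2
        · refine ContinuousOn.congr ?_ hval
          exact e.symm.continuousOn.comp hγ.continuous.continuousOn htarget
      · show (if (0 : ℝ) ≤ σ then G 0 else e.symm (γ 0)) = v0
        rw [if_pos hσ0]
        exact hGσ.2.1
      · rw [hun] at ht
        rcases ht with ht | ht
        · show f (if t ≤ σ then G t else e.symm (γ t)) = γ t
          rw [hval2 t ht]
          exact hGσ.2.2 t ht
        · show f (if t ≤ σ then G t else e.symm (γ t)) = γ t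
          rw [hval t ht, hfe, e.right_inv (htarget t ht)]
    have hmem : σ' ∈ S := ⟨⟨hσ0.trans hσσ'.le, min_le_right _ _⟩, _, hlift'⟩
    have := le_csSup hbdd hmem
    linarith
  rw [hσeq] at hGσ
  exact ⟨G, hGσ.1, hGσ.2.1, hGσ.2.2⟩

end P219G
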