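import Mathlib.Analysis.Calculus.ContDiff.Operations
import Mathlib.Topology.Homotopy.Lifting
import Vale.Agent.Lib.P219.Geo.HadA

/-!
# P219: a map which is expanding over compact sets is bijective (Hadamard)
-/

open Set Filter Topology

namespace P219G

variable {V : Type*} [NormedAddCommGroup V] [NormedSpace ℝ V] [FiniteDimensional ℝ V]

/-- Surjectivity: lift the segment from `f 0` to `q` starting at `0`. Injectivity: let
`f v0 = f v1 = q`; the loops `γ t s = q + (1 - t) (f (v0 + s (v1 - v0)) - q)` form a homotopy relative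
to `{0, 1}` from `s ↦ f (v0 + s (v1 - v0))` to the constant loop; each is `C^1` in `s` so lifts to
a path `Γ t` from `v0` (`exists_lift`); `Γ 0` is the segment from `v0` to `v1` and `Γ 1` is constant
(uniqueness of lifts: `IsLocalHomeomorph` is locally injective and `V` is Hausdorff, so the map is
separated); the monodromy theorem (`IsLocalHomeomorph.monodromy_theorem` in
Mathlib.Topology.Homotopy.Lifting) gives `Γ 1 1 = Γ 0 1`, i.e. `v0 = v1`. -/
theorem expanding_bijective (f : V → V) (hf : ContDiff ℝ 1 f)
    (hexp : ExpandingOverCompacts f) : Function.Bijective f := by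
  have hloc := expanding_isLocalHomeomorph f hf hexp
  have sep : IsSeparatedMap f := T2Space.isSeparatedMap f
  refine ⟨?_, ?_⟩
  · intro v0 v1 hv
    -- the homotopy
    have hγ : ∀ t : ℝ, ContDiff ℝ 1
        (fun s : ℝ => f v0 + (1 - t) • (f (v0 + s • (v1 - v0)) - f v0)) := by
      intro t
      have h1 : ContDiff ℝ 1 (fun s : ℝ => v0 + s • (v1 - v0)) :=
        contDiff_const.add (contDiff_id.smul contDiff_const)
      exact contDiff_const.add (contDiff_const.smul ((hf.comp h1).sub contDiff_const))
    have hlift : ∀ t : ℝ, ∃ Γ : ℝ → V, ContinuousOn Γ (Icc 0 1) ∧ Γ 0 = v0 ∧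
        ∀ s ∈ Icc (0 : ℝ) 1, f (Γ s) = f v0 + (1 - t) • (f (v0 + s • (v1 - v0)) - f v0) := by
      intro t
      refine exists_lift f hf hexp _ (hγ t) v0 ?_
      simp
    choose Γ hΓc hΓ0 hΓl using hlift
    let Γ' : unitInterval → C(unitInterval, V) := fun t =>
      ⟨fun s => Γ t s, (hΓc t).comp_continuous continuous_subtype_val (fun s => s.2)⟩
    have hcont : Continuous fun p : unitInterval × unitInterval =>
        f v0 + (1 - (p.1 : ℝ)) • (f (v0 + (p.2 : ℝ) • (v1 - v0)) - f v0) := by
      have h1 := hf.continuous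
      fun_prop
    let γ₀ : C(unitInterval, V) := ⟨fun s => f (v0 + (s : ℝ) • (v1 - v0)), by
      have h1 := hf.continuous
      fun_prop⟩
    let γ₁ : C(unitInterval, V) := ⟨fun _ => f v0, continuous_const⟩
    let H : γ₀.HomotopyRel γ₁ {0, 1} :=
      { toFun := fun p => f v0 + (1 - (p.1 : ℝ)) • (f (v0 + (p.2 : ℝ) • (v1 - v0)) - f v0)
        continuous_toFun := hcont
        map_zero_left := fun s => by simp [γ₀]
        map_one_left := fun s => by simp [γ₁]
        prop' := by
          intro t x hx
          rcases hx with rfl | hx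
          · simp [γ₀]
          · rw [Set.mem_singleton_iff] at hx
            subst hx
            simp [γ₀, ← hv] }
    have hm := hloc.monodromy_theorem sep H Γ' (fun t s => hΓl t s s.2)
      (fun t => by
        show Γ (t : ℝ) ((0 : unitInterval) : ℝ) = Γ ((0 : unitInterval) : ℝ) ((0 : unitInterval) : ℝ)
        have h0 : ((0 : unitInterval) : ℝ) = 0 := rfl
        rw [h0, hΓ0, hΓ0]) 1
    have e0 : (Γ' 0 : unitInterval → V) = fun s : unitInterval => v0 + (s : ℝ) • (v1 - v0) := by
      refine sep.eq_of_comp_eq hloc.isLocallyInjective (Γ' 0).continuous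
        (continuous_const.add (continuous_subtype_val.smul continuous_const)) ?_ 0 ?_
      · funext s
        have h1 := hΓl ((0 : unitInterval) : ℝ) s s.2
        show f (Γ ((0 : unitInterval) : ℝ) s) = _
        rw [h1]
        simp
      · show Γ ((0 : unitInterval) : ℝ) ((0 : unitInterval) : ℝ) = _
        have h0 : ((0 : unitInterval) : ℝ) = 0 := rfl
        rw [h0, hΓ0]
        simp
    have e1 : (Γ' 1 : unitInterval → V) = fun _ => v0 := by
      refine sep.eq_of_comp_eq hloc.isLocallyInjective (Γ' 1).continuous continuous_const ?_ 0 ?_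
      · funext s
        have h1 := hΓl ((1 : unitInterval) : ℝ) s s.2
        show f (Γ ((1 : unitInterval) : ℝ) s) = _
        rw [h1]
        simp
      · show Γ ((1 : unitInterval) : ℝ) ((0 : unitInterval) : ℝ) = _
        have h0 : ((0 : unitInterval) : ℝ) = 0 := rfl
        rw [h0, hΓ0]
    rw [e0, e1] at hm
    simpa using hm
  · intro q
    obtain ⟨Γ, -, -, h1⟩ := exists_lift f hf hexp (fun s => f 0 + s • (q - f 0))
      (contDiff_const.add (contDiff_id.smul contDiff_const)) 0 (by simp)
    refine ⟨Γ 1, ?_⟩
    rw [h1 1 (by simp)]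
    simp

end P219G
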