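import Vale.Agent.Lib.P219.Geo.FlowA
import Vale.Agent.Lib.P219.Geo.Metric

/-!
# P219: the geodesic flow: existence, scaling, conservation of speed
-/

open scoped ContDiff
open Vale.Agent.Lib.P219 (Ev)

namespace P219G

variable {n : ℕ}

private theorem comp_aux {E F : Type*} [NormedAddCommGroup E] [NormedSpace ℝ E]
    [NormedAddCommGroup F] [NormedSpace ℝ F] {g : E → F} {g' : E →L[ℝ] F} {γ : ℝ → E} {γ' : E}
    {t : ℝ} (hg : HasFDerivAt g g' (γ t)) (h : HasDerivAt γ γ' t) :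
    HasDerivAt (fun s => g (γ s)) (g' γ') t :=
  hg.comp_hasDerivAt t h

theorem spray_contDiff {Γ : Ev n → Ev n →L[ℝ] Ev n →L[ℝ] Ev n} (hΓ : ContDiff ℝ ∞ Γ) :
    ContDiff ℝ ∞ (spray Γ) := by
  unfold spray
  refine contDiff_snd.prodMk ?_
  refine ContDiff.neg ?_
  exact ((hΓ.comp contDiff_fst).clm_apply contDiff_snd).clm_apply contDiff_snd

/-- The geodesic flow exists: choose for each `(p, v)` the curve `c` of `IsComplete` and put
`Ψ t (p, v) = (c t, c' t)`. For `zero`: `(c 0, c' 0) = (p, v)`. For `deriv`: `c` satisfies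
`(c, c')' = (c', -Γ(c)(c', c')) = spray Γ (c, c')`. -/
theorem exists_flow {Γ : Ev n → Ev n →L[ℝ] Ev n →L[ℝ] Ev n} (hc : IsComplete Γ) :
    ∃ Ψ : ℝ → Ev n × Ev n → Ev n × Ev n, IsFlow (spray Γ) Ψ := by
  choose c h0 h1 h2 using hc
  refine ⟨fun t z => (c z.1 z.2 t, deriv (c z.1 z.2) t), ⟨?_, ?_⟩⟩
  · rintro ⟨p, v⟩
    simp only [h0, h1]
  · rintro t ⟨p, v⟩
    exact (h2 p v t).1.hasDerivAt.prodMk (h2 p v t).2

theorem flow_vel {Γ : Ev n → Ev n →L[ℝ] Ev n →L[ℝ] Ev n}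
    {Ψ : ℝ → Ev n × Ev n → Ev n × Ev n} (h : IsFlow (spray Γ) Ψ) (t : ℝ) (z : Ev n × Ev n) :
    HasDerivAt (fun s => (Ψ s z).1) (Ψ t z).2 t := by
  have := (h.deriv t z)
  exact (hasFDerivAt_fst.comp_hasDerivAt t this : _)

theorem flow_acc {Γ : Ev n → Ev n →L[ℝ] Ev n →L[ℝ] Ev n}
    {Ψ : ℝ → Ev n × Ev n → Ev n × Ev n} (h : IsFlow (spray Γ) Ψ) (t : ℝ) (z : Ev n × Ev n) :
    HasDerivAt (fun s => (Ψ s z).2) (-(Γ (Ψ t z).1 (Ψ t z).2 (Ψ t z).2)) t := by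
  have := (h.deriv t z)
  exact (hasFDerivAt_snd.comp_hasDerivAt t this : _)

/-- Homogeneity: both sides solve the geodesic equation (in `t`) with the same initial value;
use `IsFlow.eq_of_hasDerivAt`. -/
theorem flow_smul {Γ : Ev n → Ev n →L[ℝ] Ev n →L[ℝ] Ev n} (hΓ : ContDiff ℝ ∞ Γ)
    {Ψ : ℝ → Ev n × Ev n → Ev n × Ev n} (h : IsFlow (spray Γ) Ψ) (t s : ℝ) (x v : Ev n) :
    Ψ t (x, s • v) = ((Ψ (s * t) (x, v)).1, s • (Ψ (s * t) (x, v)).2) := by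
  have hF : ContDiff ℝ 1 (spray Γ) := (spray_contDiff hΓ).of_le (by exact_mod_cast le_top)
  set c : ℝ → Ev n × Ev n := fun t => ((Ψ (s * t) (x, v)).1, s • (Ψ (s * t) (x, v)).2) with hc
  have hlin : ∀ t : ℝ, HasDerivAt (fun t : ℝ => s * t) s t := by
    intro t
    simpa using (hasDerivAt_id t).const_mul s
  have hcd : ∀ t, HasDerivAt c (spray Γ (c t)) t := by
    intro t
    have e1 : HasDerivAt (fun t : ℝ => (Ψ (s * t) (x, v)).1) (s • (Ψ (s * t) (x, v)).2) t :=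
      HasDerivAt.scomp t (flow_vel h (s * t) (x, v)) (hlin t)
    have e2 : HasDerivAt (fun t : ℝ => (Ψ (s * t) (x, v)).2)
        (s • (-(Γ (Ψ (s * t) (x, v)).1 (Ψ (s * t) (x, v)).2 (Ψ (s * t) (x, v)).2))) t :=
      HasDerivAt.scomp t (flow_acc h (s * t) (x, v)) (hlin t)
    have e3 := e1.prodMk (e2.const_smul s)
    have e4 : spray Γ (c t) = (s • (Ψ (s * t) (x, v)).2,
        s • (s • (-(Γ (Ψ (s * t) (x, v)).1 (Ψ (s * t) (x, v)).2 (Ψ (s * t) (x, v)).2)))) := by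
      simp only [hc, spray, map_smul, _root_.smul_apply, smul_neg]
    rw [e4]
    exact e3
  have := IsFlow.eq_of_hasDerivAt hF h hcd t
  have h0 : c 0 = (x, s • v) := by
    simp only [hc, mul_zero, h.zero]
  rw [h0] at this
  exact this.symm

/-- Conservation of speed: the derivative of `g(γ)(γ', γ')` is
`Dg(γ')(γ',γ') + 2 g(γ'', γ') = 2 g(Γ(γ',γ'), γ') - 2 g(Γ(γ',γ'), γ') = 0`. -/
theorem flow_speed {g : Ev n → Ev n →L[ℝ] Ev n →L[ℝ] ℝ} (hg : IsMetric g)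
    {Γ : Ev n → Ev n →L[ℝ] Ev n →L[ℝ] Ev n} (hΓ : IsLeviCivita g Γ)
    {Ψ : ℝ → Ev n × Ev n → Ev n × Ev n} (h : IsFlow (spray Γ) Ψ) (t : ℝ) (z : Ev n × Ev n) :
    g (Ψ t z).1 (Ψ t z).2 (Ψ t z).2 = g z.1 z.2 z.2 := by
  have key : ∀ t, HasDerivAt (fun s => g (Ψ s z).1 (Ψ s z).2 (Ψ s z).2) 0 t := by
    intro t
    have hgd : HasFDerivAt g (fderiv ℝ g (Ψ t z).1) (Ψ t z).1 :=
      ((hg.smooth.differentiable (by simp)) _).hasFDerivAt
    have e1 : HasDerivAt (fun s => g (Ψ s z).1) (fderiv ℝ g (Ψ t z).1 (Ψ t z).2) t := by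
      have e := comp_aux (E := Ev n) (F := Ev n →L[ℝ] Ev n →L[ℝ] ℝ) (g := g)
        (g' := fderiv ℝ g (Ψ t z).1) (γ := fun s => (Ψ s z).1) (γ' := (Ψ t z).2) (t := t)
      exact e hgd (flow_vel h t z)
    have e2 := (e1.clm_apply (flow_acc h t z)).clm_apply (flow_acc h t z)
    have hm := hΓ.metric (Ψ t z).1 (Ψ t z).2 (Ψ t z).2 (Ψ t z).2
    refine e2.congr_deriv ?_
    simp only [_root_.add_apply, map_neg, _root_.neg_apply]
    rw [hm]
    ring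
  have hconst := is_const_of_deriv_eq_zero (𝕜 := ℝ)
    (f := fun s => g (Ψ s z).1 (Ψ s z).2 (Ψ s z).2)
    (fun s => (key s).differentiableAt) (fun s => (key s).deriv) t 0
  simpa only [h.zero] using hconst

/-- The geodesic run backwards: `ex y (- ve x v) = x` and `ve y (- ve x v) = - v` for `y = ex x v`
(scaling with `s = -1` and the group law). -/
theorem flow_back {Γ : Ev n → Ev n →L[ℝ] Ev n →L[ℝ] Ev n} (hΓ : ContDiff ℝ ∞ Γ)
    {Ψ : ℝ → Ev n × Ev n → Ev n × Ev n} (h : IsFlow (spray Γ) Ψ) (x v : Ev n) :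
    Ψ 1 (ex Ψ x v, - ve Ψ x v) = (x, -v) := by
  have hF : ContDiff ℝ 1 (spray Γ) := (spray_contDiff hΓ).of_le (by exact_mod_cast le_top)
  have h1 := flow_smul hΓ h 1 (-1) (ex Ψ x v) (ve Ψ x v)
  have h2 : ((-1 : ℝ) • ve Ψ x v) = - ve Ψ x v := by simp
  rw [h2] at h1
  have h3 : Ψ ((-1 : ℝ) * 1) (ex Ψ x v, ve Ψ x v) = (x, v) := by
    have h4 : (ex Ψ x v, ve Ψ x v) = Ψ 1 (x, v) := rfl
    rw [h4, ← IsFlow.add hF h]
    norm_num
    exact h.zero _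
  rw [h1, h3]
  simp

end P219G
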