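import Vale.Agent.Lib.P219.Geo.FlowC
import Vale.Agent.Lib.P219.Geo.Spray

/-!
# P219: Jacobi fields

`Y(t) = D(Ψ t)(z) ζ = (J, K)`, `J = δγ`, `K = δγ'`; the covariant derivative of `J` is
`DJ = K + Γ(γ)(γ', J)`. Then `D(DJ) = - R(J, γ') γ'`.
-/

open scoped ContDiff
open Vale.Agent.Lib.P219 (Ev)

namespace P219G

variable {n : ℕ}

/-- the Jacobi field -/
noncomputable def Jf (Ψ : ℝ → Ev n × Ev n → Ev n × Ev n) (z ζ : Ev n × Ev n) (t : ℝ) : Ev n :=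
  (fderiv ℝ (Ψ t) z ζ).1

/-- the covariant derivative of the Jacobi field -/
noncomputable def DJf (Γ : Ev n → Ev n →L[ℝ] Ev n →L[ℝ] Ev n)
    (Ψ : ℝ → Ev n × Ev n → Ev n × Ev n) (z ζ : Ev n × Ev n) (t : ℝ) : Ev n :=
  (fderiv ℝ (Ψ t) z ζ).2 + Γ (Ψ t z).1 (Ψ t z).2 (Jf Ψ z ζ t)

variable {g : Ev n → Ev n →L[ℝ] Ev n →L[ℝ] ℝ} {Γ : Ev n → Ev n →L[ℝ] Ev n →L[ℝ] Ev n}
  {Ψ : ℝ → Ev n × Ev n → Ev n × Ev n}

private lemma spray_C1 (hΓ : IsLeviCivita g Γ) : ContDiff ℝ 1 (spray Γ) :=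
  (spray_contDiff hΓ.smooth).of_le (by exact_mod_cast le_top)

private lemma Γ_hasFDerivAt (hΓ : IsLeviCivita g Γ) (p : Ev n) :
    HasFDerivAt Γ (fderiv ℝ Γ p) p :=
  (hΓ.smooth.differentiable (by simp) p).hasFDerivAt

/-- derivative of the geodesic field -/
private lemma fderiv_spray_apply (hΓ : IsLeviCivita g Γ) (z ζ : Ev n × Ev n) :
    fderiv ℝ (spray Γ) z ζ
      = (ζ.2, -(Γ z.1 z.2 ζ.2 + (Γ z.1 ζ.2 + fderiv ℝ Γ z.1 ζ.1 z.2) z.2)) := by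
  have h0 : HasFDerivAt (fun z : Ev n × Ev n => z.1)
      (ContinuousLinearMap.fst ℝ (Ev n) (Ev n)) z := hasFDerivAt_fst
  have h1 : HasFDerivAt (fun z : Ev n × Ev n => Γ z.1)
      ((fderiv ℝ Γ z.1).comp (ContinuousLinearMap.fst ℝ (Ev n) (Ev n))) z :=
    HasFDerivAt.comp (E := Ev n × Ev n) (G := Ev n →L[ℝ] Ev n →L[ℝ] Ev n) (F := Ev n) z
      (Γ_hasFDerivAt hΓ z.1) h0
  have h2 : HasFDerivAt (fun z : Ev n × Ev n => z.2)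
      (ContinuousLinearMap.snd ℝ (Ev n) (Ev n)) z := hasFDerivAt_snd
  have h3 := h1.clm_apply h2
  have h4 := h3.clm_apply h2
  have h5 : HasFDerivAt (spray Γ) _ z := h2.prodMk h4.neg
  rw [h5.fderiv]
  simp

/-- the derivative of `Γ` is symmetric -/
private lemma fderiv_Γ_symm (hΓ : IsLeviCivita g Γ) (p u v w : Ev n) :
    fderiv ℝ Γ p u v w = fderiv ℝ Γ p u w v := by
  have h0 := Γ_hasFDerivAt hΓ p
  have h1 := (h0.clm_apply (hasFDerivAt_const v p)).clm_apply (hasFDerivAt_const w p)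
  have h2 := (h0.clm_apply (hasFDerivAt_const w p)).clm_apply (hasFDerivAt_const v p)
  have h3 : (fun q => Γ q v w) = fun q => Γ q w v := by
    funext q
    exact hΓ.torsion_free q v w
  rw [h3] at h1
  have h4 := congrArg (fun L => L u) (h1.unique h2)
  simpa using h4

/-- `J' = K` (variational equation `IsFlow.hasDerivAt_fderiv`, first component of
`D(spray)(x,v)(a,b) = (b, -DΓ(x)(a)(v,v) - Γ(b,v) - Γ(v,b))`). -/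
theorem hasDerivAt_Jf (hΓ : IsLeviCivita g Γ) (h : IsFlow (spray Γ) Ψ) (z ζ : Ev n × Ev n) (t : ℝ) :
    HasDerivAt (Jf Ψ z ζ) (fderiv ℝ (Ψ t) z ζ).2 t := by
  have h1 := (h.hasDerivAt_fderiv (spray_C1 hΓ) z t).clm_apply (hasDerivAt_const t ζ)
  have h2 := (ContinuousLinearMap.fst ℝ (Ev n) (Ev n)).hasFDerivAt.comp_hasDerivAt t h1
  have h3 : (fun s => (fderiv ℝ (Ψ s) z ζ).1) = Jf Ψ z ζ := rfl
  refine (h2.congr_deriv ?_)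
  simp [fderiv_spray_apply hΓ]

/-- the second component of the variational equation -/
private lemma hasDerivAt_K (hΓ : IsLeviCivita g Γ) (h : IsFlow (spray Γ) Ψ) (z ζ : Ev n × Ev n)
    (t : ℝ) :
    HasDerivAt (fun s => (fderiv ℝ (Ψ s) z ζ).2)
      (-(Γ (Ψ t z).1 (Ψ t z).2 (fderiv ℝ (Ψ t) z ζ).2
        + (Γ (Ψ t z).1 (fderiv ℝ (Ψ t) z ζ).2
          + fderiv ℝ Γ (Ψ t z).1 (fderiv ℝ (Ψ t) z ζ).1 (Ψ t z).2) (Ψ t z).2)) t := by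
  have h1 := (h.hasDerivAt_fderiv (spray_C1 hΓ) z t).clm_apply (hasDerivAt_const t ζ)
  have h2 := (ContinuousLinearMap.snd ℝ (Ev n) (Ev n)).hasFDerivAt.comp_hasDerivAt t h1
  refine (h2.congr_deriv ?_)
  simp [fderiv_spray_apply hΓ]

private lemma hasDerivAt_Γ (hΓ : IsLeviCivita g Γ) (h : IsFlow (spray Γ) Ψ) (z : Ev n × Ev n)
    (t : ℝ) :
    HasDerivAt (fun s => Γ (Ψ s z).1) (fderiv ℝ Γ (Ψ t z).1 (Ψ t z).2) t :=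
  HasFDerivAt.comp_hasDerivAt (E := Ev n →L[ℝ] Ev n →L[ℝ] Ev n) t
    (Γ_hasFDerivAt hΓ (Ψ t z).1) (flow_vel h t z)

/-- Jacobi equation: `(DJ)' = -R(J, γ')γ' - Γ(γ', DJ)`, i.e. the covariant derivative of `DJ` is
`-R(J,γ')γ'`. Computation: `K' = -DΓ(J)(γ',γ') - 2Γ(γ',K)`, `γ'' = -Γ(γ',γ')`, so
`(K + Γ(γ',J))' = -DΓ(J)(γ',γ') - 2Γ(γ',K) + DΓ(γ')(γ',J) - Γ(Γ(γ',γ'),J) + Γ(γ',K)`, and
`R(J,γ')γ' = DΓ(J)(γ',γ') - DΓ(γ')(J,γ') + Γ(J,Γ(γ',γ')) - Γ(γ',Γ(J,γ'))`.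
(`DΓ(u)` is symmetric in its two arguments because `Γ` is.) -/
theorem hasDerivAt_DJf (hΓ : IsLeviCivita g Γ) (h : IsFlow (spray Γ) Ψ) (z ζ : Ev n × Ev n)
    (t : ℝ) :
    HasDerivAt (DJf Γ Ψ z ζ)
      (-(curvatureTensor Γ (Ψ t z).1 (Jf Ψ z ζ t) (Ψ t z).2 (Ψ t z).2)
        - Γ (Ψ t z).1 (Ψ t z).2 (DJf Γ Ψ z ζ t)) t := by
  have h1 := (((hasDerivAt_Γ hΓ h z t).clm_apply (flow_acc h t z)).clm_apply
    (hasDerivAt_Jf hΓ h z ζ t))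
  have h2 := (hasDerivAt_K hΓ h z ζ t).add h1
  refine HasDerivAt.congr_deriv (f := DJf Γ Ψ z ζ) h2 ?_
  have e1 := fderiv_Γ_symm hΓ (Ψ t z).1 (Ψ t z).2 (Ψ t z).2 (Jf Ψ z ζ t)
  have e2 := hΓ.torsion_free (Ψ t z).1 (fderiv ℝ (Ψ t) z ζ).2 (Ψ t z).2
  have e3 := hΓ.torsion_free (Ψ t z).1 (Jf Ψ z ζ t) (Ψ t z).2
  have e4 := hΓ.torsion_free (Ψ t z).1 (Γ (Ψ t z).1 (Ψ t z).2 (Ψ t z).2) (Jf Ψ z ζ t)
  have e5 : (fderiv ℝ (Ψ t) z ζ).1 = Jf Ψ z ζ t := rfl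
  simp only [curvatureTensor, DJf, add_apply, neg_apply, map_neg, map_add, e1, e2, e3, e4, e5]
  abel

/-- Metric compatibility along a geodesic: if `X' = X1 - Γ(γ', X)` and `Y' = Y1 - Γ(γ', Y)`
(`X1`, `Y1` the covariant derivatives) then `g(X,Y)' = g(X1,Y) + g(X,Y1)`. -/
theorem hasDerivAt_inner (hg : IsMetric g) (hΓ : IsLeviCivita g Γ) (h : IsFlow (spray Γ) Ψ)
    (z : Ev n × Ev n) (X Y : ℝ → Ev n) (X1 Y1 : Ev n) (t : ℝ)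
    (hX : HasDerivAt X (X1 - Γ (Ψ t z).1 (Ψ t z).2 (X t)) t)
    (hY : HasDerivAt Y (Y1 - Γ (Ψ t z).1 (Ψ t z).2 (Y t)) t) :
    HasDerivAt (fun s => g (Ψ s z).1 (X s) (Y s))
      (g (Ψ t z).1 X1 (Y t) + g (Ψ t z).1 (X t) Y1) t := by
  have h0 : HasFDerivAt g (fderiv ℝ g (Ψ t z).1) (Ψ t z).1 :=
    (hg.smooth.differentiable (by simp) _).hasFDerivAt
  have h1 : HasDerivAt (fun s => g (Ψ s z).1) (fderiv ℝ g (Ψ t z).1 (Ψ t z).2) t :=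
    HasFDerivAt.comp_hasDerivAt (E := Ev n →L[ℝ] Ev n →L[ℝ] ℝ) t h0 (flow_vel h t z)
  have h2 := (h1.clm_apply hX).clm_apply hY
  refine h2.congr_deriv ?_
  have e1 := hΓ.metric (Ψ t z).1 (Ψ t z).2 (X t) (Y t)
  simp only [add_apply, map_sub, sub_apply, e1]
  abel

end P219G
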