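import Mathlib.Algebra.Order.Star.Real
import Mathlib.Algebra.Ring.IsFormallyReal
import Mathlib.Analysis.Calculus.LHopital
import Mathlib.Analysis.Convex.Deriv
import Mathlib.Analysis.InnerProductSpace.Basic
import Mathlib.Analysis.SpecialFunctions.Sqrt
import Mathlib.Topology.Algebra.Module.ModuleTopology

/-!
# P219: the scalar comparison for Jacobi fields
-/

open Filter Topology

namespace P219G

/-- `√h` is convex, hence `h(s t) ≤ s² h(t)`. Proof: for `ε > 0` let `u = √(h + ε)`; then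
`u' = p/u`, and `u'` is nondecreasing on `[0,∞)`: `(p/u)' = (p' - p²/(h+ε))/u ≥ (k - p²/(h+ε))/u ≥ 0`
as `p² ≤ h k ≤ (h+ε) k`. So `u` is convex on `[0,∞)` and `u(st) ≤ (1-s) u(0) + s u(t)
= (1-s)√ε + s √(h t + ε)`; let `ε → 0`. (`p' ` denotes the derivative `p1`.) -/
theorem scalar_mono (h p k p1 : ℝ → ℝ) (hh : ∀ t, HasDerivAt h (2 * p t) t)
    (hp : ∀ t, HasDerivAt p (p1 t) t) (hk : ∀ t, k t ≤ p1 t) (hh0 : h 0 = 0)
    (hpos : ∀ t, 0 ≤ h t) (hkpos : ∀ t, 0 ≤ k t) (hcs : ∀ t, p t ^ 2 ≤ h t * k t)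
    (s t : ℝ) (hs : 0 ≤ s) (hs1 : s ≤ 1) (ht : 0 ≤ t) : h (s * t) ≤ s ^ 2 * h t := by
  have key : ∀ ε : ℝ, 0 < ε → √(h (s * t) + ε) ≤ (1 - s) * √ε + s * √(h t + ε) := by
    intro ε hε
    have hupos : ∀ x, 0 < h x + ε := fun x => by have := hpos x; linarith
    have hu : ∀ x, HasDerivAt (fun x => √(h x + ε)) (p x / √(h x + ε)) x := by
      intro x
      have h1 := ((hh x).add_const ε).sqrt (ne_of_gt (hupos x))
      have h2 : 2 * p x / (2 * √(h x + ε)) = p x / √(h x + ε) := by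
        rw [mul_div_mul_left _ _ two_ne_zero]
      rw [h2] at h1
      exact h1
    have hu2 : ∀ x, HasDerivAt (fun x => p x / √(h x + ε))
        ((p1 x * √(h x + ε) - p x * (p x / √(h x + ε))) / √(h x + ε) ^ 2) x := by
      intro x
      exact (hp x).div (hu x) (ne_of_gt (Real.sqrt_pos.2 (hupos x)))
    have hconv : ConvexOn ℝ Set.univ (fun x => √(h x + ε)) := by
      refine convexOn_of_hasDerivWithinAt2_nonneg convex_univ
        (fun x _ => (hu x).continuousAt.continuousWithinAt)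
        (fun x _ => (hu x).hasDerivWithinAt) (fun x _ => (hu2 x).hasDerivWithinAt) ?_
      intro x _
      have hs0 := Real.sqrt_pos.2 (hupos x)
      have hsq := Real.mul_self_sqrt (le_of_lt (hupos x))
      apply div_nonneg _ (sq_nonneg _)
      have h1 : p x * (p x / √(h x + ε)) ≤ p1 x * √(h x + ε) := by
        rw [← mul_div_assoc, div_le_iff₀ hs0, mul_assoc, hsq]
        have h2 := hcs x
        have h3 : h x * k x ≤ (h x + ε) * k x :=
          mul_le_mul_of_nonneg_right (by linarith) (hkpos x)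
        have h4 : k x * (h x + ε) ≤ p1 x * (h x + ε) :=
          mul_le_mul_of_nonneg_right (hk x) (le_of_lt (hupos x))
        have h5 : p x * p x = p x ^ 2 := by ring
        rw [h5]
        linarith
      linarith
    have h1 := hconv.2 (Set.mem_univ (0 : ℝ)) (Set.mem_univ t) (by linarith : 0 ≤ 1 - s) hs
      (by ring)
    simp only [smul_eq_mul, mul_zero, zero_add, hh0] at h1
    exact h1
  have hlim : √(h (s * t)) ≤ s * √(h t) := by
    have t1 : Tendsto (fun ε : ℝ => √(h (s * t) + ε)) (𝓝[>] 0) (𝓝 (√(h (s * t) + 0))) :=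
      ((Real.continuous_sqrt.comp (continuous_const.add continuous_id)).tendsto 0).mono_left
        nhdsWithin_le_nhds
    have t2 : Tendsto (fun ε : ℝ => (1 - s) * √ε + s * √(h t + ε)) (𝓝[>] 0)
        (𝓝 ((1 - s) * √0 + s * √(h t + 0))) :=
      (((continuous_const.mul Real.continuous_sqrt).add (continuous_const.mul
        (Real.continuous_sqrt.comp (continuous_const.add continuous_id)))).tendsto 0).mono_left
        nhdsWithin_le_nhds
    have h1 := le_of_tendsto_of_tendsto t1 t2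
      (by filter_upwards [self_mem_nhdsWithin] with ε hε using key ε hε)
    simpa using h1
  have h1 : √(h (s * t)) ^ 2 ≤ (s * √(h t)) ^ 2 :=
    pow_le_pow_left₀ (Real.sqrt_nonneg _) hlim 2
  rw [mul_pow, Real.sq_sqrt (hpos _), Real.sq_sqrt (hpos _)] at h1
  exact h1

/-- The lower bound `h(t) ≥ t² p'(0)`: from `scalar_mono`, `h(st)/(st)² ≤ h(t)/t²`, and
`h(r)/r² → p1 0` as `r → 0+` (Taylor: `h' = 2p`, `p(r) = p1(0) r + o(r)`, as `p 0 = 0` because
`p(0)² ≤ h(0) k(0) = 0`). -/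
theorem scalar_lower (h p k p1 : ℝ → ℝ) (hh : ∀ t, HasDerivAt h (2 * p t) t)
    (hp : ∀ t, HasDerivAt p (p1 t) t) (hk : ∀ t, k t ≤ p1 t) (hh0 : h 0 = 0)
    (hpos : ∀ t, 0 ≤ h t) (hkpos : ∀ t, 0 ≤ k t) (hcs : ∀ t, p t ^ 2 ≤ h t * k t)
    (t : ℝ) (ht : 0 ≤ t) : t ^ 2 * p1 0 ≤ h t := by
  have hp0 : p 0 = 0 := by
    have h1 := hcs 0
    rw [hh0, zero_mul] at h1
    exact pow_eq_zero_iff two_ne_zero |>.1 (le_antisymm h1 (sq_nonneg _))
  rcases eq_or_lt_of_le ht with rfl | htpos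
  · rw [hh0]; simp
  -- the limit of `h r / r²`
  have hpr : Tendsto (fun r => p r / r) (𝓝[>] 0) (𝓝 (p1 0)) := by
    have h1 := (hasDerivAt_iff_tendsto_slope.1 (hp 0))
    have h2 : Tendsto (slope p 0) (𝓝[>] 0) (𝓝 (p1 0)) :=
      h1.mono_left (nhdsWithin_mono _ (fun x hx => ne_of_gt hx))
    refine h2.congr fun r => ?_
    rw [slope_def_field, hp0, sub_zero, sub_zero]
  have hlim : Tendsto (fun r => h r / r ^ 2) (𝓝[>] 0) (𝓝 (p1 0)) := by
    refine HasDerivAt.lhopital_zero_nhdsGT (f' := fun r => 2 * p r) (g' := fun r => 2 * r)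
      ?_ ?_ ?_ ?_ ?_ ?_
    · exact Eventually.of_forall fun r => hh r
    · refine Eventually.of_forall fun r => ?_
      have h1 := hasDerivAt_pow 2 r
      simpa using h1
    · filter_upwards [self_mem_nhdsWithin] with r hr
      exact mul_ne_zero two_ne_zero (ne_of_gt hr)
    · have h1 : Tendsto h (𝓝 0) (𝓝 (h 0)) := (hh 0).continuousAt
      rw [hh0] at h1
      exact h1.mono_left nhdsWithin_le_nhds
    · have h1 : Tendsto (fun r : ℝ => r ^ 2) (𝓝 0) (𝓝 (0 ^ 2)) := (continuous_pow 2).tendsto 0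
      rw [zero_pow two_ne_zero] at h1
      exact h1.mono_left nhdsWithin_le_nhds
    · refine hpr.congr fun r => ?_
      rw [mul_div_mul_left _ _ two_ne_zero]
  have hev : ∀ᶠ r in 𝓝[>] (0 : ℝ), h r / r ^ 2 ≤ h t / t ^ 2 := by
    have h1 : Set.Ioc (0 : ℝ) t ∈ 𝓝[>] (0 : ℝ) := Ioc_mem_nhdsGT htpos
    filter_upwards [h1] with r hr
    have h2 := scalar_mono h p k p1 hh hp hk hh0 hpos hkpos hcs (r / t) t
      (div_nonneg hr.1.le ht) (by rw [div_le_one htpos]; exact hr.2) ht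
    rw [div_mul_cancel₀ _ (ne_of_gt htpos), div_pow] at h2
    rw [div_le_iff₀ (pow_pos hr.1 2)]
    calc h r ≤ r ^ 2 / t ^ 2 * h t := h2
      _ = h t / t ^ 2 * r ^ 2 := by ring
  have h3 := le_of_tendsto hlim hev
  rw [le_div_iff₀ (pow_pos htpos 2)] at h3
  linarith

/-- Derivative form at `t = 1`: `p(1) ≥ h(1)`. From `scalar_mono`: `h(s) ≤ s² h(1)` for `s ≤ 1` with
equality at `s = 1`, so the derivatives at `1` satisfy `2 p(1) ≥ 2 h(1)`. -/
theorem scalar_deriv (h p k p1 : ℝ → ℝ) (hh : ∀ t, HasDerivAt h (2 * p t) t)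
    (hp : ∀ t, HasDerivAt p (p1 t) t) (hk : ∀ t, k t ≤ p1 t) (hh0 : h 0 = 0)
    (hpos : ∀ t, 0 ≤ h t) (hkpos : ∀ t, 0 ≤ k t) (hcs : ∀ t, p t ^ 2 ≤ h t * k t) :
    h 1 ≤ p 1 := by
  have hf : HasDerivAt (fun s => s ^ 2 * h 1 - h s) (2 * h 1 - 2 * p 1) 1 := by
    have h1 := ((hasDerivAt_pow 2 (1 : ℝ)).mul_const (h 1)).sub (hh 1)
    have h2 : ((2 : ℕ) : ℝ) * 1 ^ (2 - 1) * h 1 - 2 * p 1 = 2 * h 1 - 2 * p 1 := by norm_num
    rw [h2] at h1
    exact h1
  have h1 := hasDerivAt_iff_tendsto_slope.1 hf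
  have h2 : Tendsto (slope (fun s => s ^ 2 * h 1 - h s) 1) (𝓝[<] 1) (𝓝 (2 * h 1 - 2 * p 1)) :=
    h1.mono_left (nhdsWithin_mono _ (fun x hx => ne_of_lt hx))
  have h3 : ∀ᶠ s in 𝓝[<] (1 : ℝ), slope (fun s => s ^ 2 * h 1 - h s) 1 s ≤ 0 := by
    have h4 : Set.Ico (0 : ℝ) 1 ∈ 𝓝[<] (1 : ℝ) := Ico_mem_nhdsLT one_pos
    filter_upwards [h4] with s hs
    have h5 := scalar_mono h p k p1 hh hp hk hh0 hpos hkpos hcs s 1 hs.1 hs.2.le zero_le_one
    rw [mul_one] at h5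
    rw [slope_def_field]
    apply div_nonpos_of_nonneg_of_nonpos
    · linarith
    · linarith [hs.2]
  have h6 := le_of_tendsto h2 h3
  linarith

end P219G
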