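import Mathlib.Algebra.Order.Archimedean.Real.Hom
import Vale.Agent.Lib.P219.Geo.JacA
import Vale.Agent.Lib.P219.Geo.Scalar
import Vale.Agent.Lib.P219.Geo.FlowD

/-!
# P219: estimates for the derivative of the exponential map under nonpositive curvature
-/

open scoped ContDiff
open Vale.Agent.Lib.P219 (Ev)

namespace P219G

variable {n : ℕ} {g : Ev n → Ev n →L[ℝ] Ev n →L[ℝ] ℝ}
  {Γ : Ev n → Ev n →L[ℝ] Ev n →L[ℝ] Ev n} {Ψ : ℝ → Ev n × Ev n → Ev n × Ev n}

private theorem metric_expand (hg : IsMetric g) (p u v : Ev n) (a b : ℝ) :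
    g p (a • u - b • v) (a • u - b • v)
      = a ^ 2 * g p u u - 2 * a * b * g p u v + b ^ 2 * g p v v := by
  have hs := hg.symm p v u
  simp only [map_sub, map_smul, sub_apply, smul_apply,
    smul_eq_mul, hs]
  ring

private theorem metric_nonneg (hg : IsMetric g) (p u : Ev n) : 0 ≤ g p u u := by
  rcases eq_or_ne u 0 with rfl | hu
  · simp
  · exact (hg.pos p u hu).le

private theorem metric_key (hg : IsMetric g) (p u v : Ev n) :
    g p (g p v v • u - g p u v • v) (g p v v • u - g p u v • v)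
      = g p v v * (g p u u * g p v v - g p u v ^ 2) := by
  rw [metric_expand hg]
  ring

/-- Nonpositive curvature for all pairs of vectors (for linearly dependent pairs the left-hand side
vanishes, by antisymmetry of `R (u, v)`; for independent pairs the denominator
`g(u,u) g(v,v) - g(u,v)²` is positive by Cauchy-Schwarz). -/
theorem curv_nonpos (hg : IsMetric g) (hΓ : IsLeviCivita g Γ) (hK : IsNonpos g Γ) (p u v : Ev n) :
    g p (curvatureTensor Γ p u v v) u ≤ 0 := by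
  rcases eq_or_ne v 0 with rfl | hv
  · simp [curvatureTensor]
  by_cases hli : LinearIndependent ℝ ![u, v]
  · have h1 := hK p u v hli
    unfold sectionalCurvature at h1
    have hvv := hg.pos p v hv
    have hw : g p v v • u - g p u v • v ≠ 0 := by
      intro h0
      have h2 := LinearIndependent.pair_iff.1 hli (g p v v) (-(g p u v)) (by
        rw [neg_smul, ← sub_eq_add_neg]
        exact h0)
      exact hvv.ne' h2.1
    have h3 := hg.pos p _ hw
    rw [metric_key hg] at h3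
    have h4 : 0 < g p u u * g p v v - g p u v ^ 2 := pos_of_mul_pos_right h3 hvv.le |> fun h => h
    by_contra hcon
    push Not at hcon
    exact absurd h1 (not_le.2 (div_pos hcon h4))
  · have : ∃ c : ℝ, u = c • v := by
      by_contra hcon
      push Not at hcon
      apply hli
      rw [LinearIndependent.pair_iff]
      intro s t hst
      by_cases hs : s = 0
      · subst hs
        refine ⟨rfl, ?_⟩
        rw [zero_smul, zero_add] at hst
        rcases smul_eq_zero.1 hst with h | h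
        · exact h
        · exact absurd h hv
      · exfalso
        apply hcon (-(s⁻¹ * t))
        have h5 : s • u = -(t • v) := eq_neg_of_add_eq_zero_left hst
        calc u = s⁻¹ • (s • u) := by rw [smul_smul, inv_mul_cancel₀ hs, one_smul]
          _ = -(s⁻¹ * t) • v := by rw [h5, smul_neg, smul_smul, neg_smul]
    obtain ⟨c, rfl⟩ := this
    have h6 : curvatureTensor Γ p (c • v) v v = 0 := by
      simp only [curvatureTensor, map_smul, smul_apply]
      simp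
    rw [h6]
    simp

/-- Cauchy-Schwarz for `g p`. -/
theorem metric_cs (hg : IsMetric g) (p u v : Ev n) : g p u v ^ 2 ≤ g p u u * g p v v := by
  rcases eq_or_ne v 0 with rfl | hv
  · simp
  have hvv := hg.pos p v hv
  have h1 := metric_nonneg hg p (g p v v • u - g p u v • v)
  rw [metric_key hg] at h1
  have h2 := nonneg_of_mul_nonneg_right h1 hvv
  linarith

/-- The Jacobi field of the variation `(0, b)` is `J(s) = s • Dex(s v) b`, because
`(Ψ s (x, v)).1 = ex x (s v)` (`flow_smul`). -/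
theorem Jf_eq (hΓ : IsLeviCivita g Γ) (h : IsFlow (spray Γ) Ψ) (x v b : Ev n) (s : ℝ) :
    Jf Ψ (x, v) (0, b) s = s • Dex Ψ x (s • v) b := by
  have hS : ContDiff ℝ 1 (spray Γ) := (spray_contDiff hΓ.smooth).of_le (by exact_mod_cast le_top)
  have hin : HasFDerivAt (fun w : Ev n => ((x, w) : Ev n × Ev n))
      (ContinuousLinearMap.inr ℝ (Ev n) (Ev n)) v := hasFDerivAt_prodMk_right x v
  have h1 : HasFDerivAt (fun w : Ev n => (Ψ s (x, w)).1)
      ((ContinuousLinearMap.fst ℝ (Ev n) (Ev n)).comp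
        ((fderiv ℝ (Ψ s) (x, v)).comp (ContinuousLinearMap.inr ℝ (Ev n) (Ev n)))) v :=
    (hasFDerivAt_fst).comp v ((h.differentiableAt hS (x, v) s).hasFDerivAt.comp v hin)
  have hex : DifferentiableAt ℝ (fun w => ex Ψ x w) (s • v) := by
    have hin2 : HasFDerivAt (fun w : Ev n => ((x, w) : Ev n × Ev n))
      (ContinuousLinearMap.inr ℝ (Ev n) (Ev n)) (s • v) := hasFDerivAt_prodMk_right x (s • v)
    have := (hasFDerivAt_fst).comp (s • v)
      ((h.differentiableAt hS (x, s • v) 1).hasFDerivAt.comp (s • v) hin2)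
    exact this.differentiableAt
  have hsm : HasFDerivAt (fun w : Ev n => s • w) (s • ContinuousLinearMap.id ℝ (Ev n)) v :=
    (hasFDerivAt_id v).const_smul s
  have h2 : HasFDerivAt (fun w : Ev n => ex Ψ x (s • w))
      ((Dex Ψ x (s • v)).comp (s • ContinuousLinearMap.id ℝ (Ev n))) v :=
    HasFDerivAt.comp v hex.hasFDerivAt hsm
  have heq : (fun w : Ev n => (Ψ s (x, w)).1) = fun w => ex Ψ x (s • w) := by
    funext w
    unfold ex
    rw [flow_smul hΓ.smooth h, mul_one]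
  rw [heq] at h1
  have h3 := congrArg (fun L : Ev n →L[ℝ] Ev n => L b) (h1.unique h2)
  simpa [Jf] using h3

theorem DJf_zero (hΓ : IsLeviCivita g Γ) (h : IsFlow (spray Γ) Ψ) (x v b : Ev n) :
    DJf Γ Ψ (x, v) (0, b) 0 = b := by
  have h0 : Ψ 0 = id := by
    funext z
    exact h.zero z
  unfold DJf Jf
  rw [h0, fderiv_id]
  simp

private theorem Jf_zero (h : IsFlow (spray Γ) Ψ) (z : Ev n × Ev n) (b : Ev n) :
    Jf Ψ z (0, b) 0 = 0 := by
  have h0 : Ψ 0 = id := by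
    funext z
    exact h.zero z
  unfold Jf
  rw [h0, fderiv_id]
  simp

private theorem hasDerivAt_Jf' (hΓ : IsLeviCivita g Γ) (h : IsFlow (spray Γ) Ψ)
    (z ζ : Ev n × Ev n) (t : ℝ) :
    HasDerivAt (Jf Ψ z ζ) (DJf Γ Ψ z ζ t - Γ (Ψ t z).1 (Ψ t z).2 (Jf Ψ z ζ t)) t := by
  have h1 := hasDerivAt_Jf hΓ h z ζ t
  have h2 : DJf Γ Ψ z ζ t - Γ (Ψ t z).1 (Ψ t z).2 (Jf Ψ z ζ t) = (fderiv ℝ (Ψ t) z ζ).2 := by
    unfold DJf
    abel
  rw [h2]
  exact h1

/-- The scalar data of the Jacobi field: with `h = g(J,J)`, `p = g(DJ,J)`, `k = g(DJ,DJ)`,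
`p1 = g(DJ,DJ) - g(R(J,γ')γ', J)` the hypotheses of `scalar_mono` etc. hold. -/
theorem jacobi_data (hg : IsMetric g) (hΓ : IsLeviCivita g Γ) (hK : IsNonpos g Γ)
    (h : IsFlow (spray Γ) Ψ) (z : Ev n × Ev n) (b : Ev n) :
    ∃ p1 : ℝ → ℝ, p1 0 = g z.1 b b ∧
    (∀ t, HasDerivAt (fun s => g (Ψ s z).1 (Jf Ψ z (0, b) s) (Jf Ψ z (0, b) s))
      (2 * g (Ψ t z).1 (DJf Γ Ψ z (0, b) t) (Jf Ψ z (0, b) t)) t) ∧
    (∀ t, HasDerivAt (fun s => g (Ψ s z).1 (DJf Γ Ψ z (0, b) s) (Jf Ψ z (0, b) s)) (p1 t) t) ∧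
    (∀ t, g (Ψ t z).1 (DJf Γ Ψ z (0, b) t) (DJf Γ Ψ z (0, b) t) ≤ p1 t) := by
  refine ⟨fun t => g (Ψ t z).1 (DJf Γ Ψ z (0, b) t) (DJf Γ Ψ z (0, b) t)
    - g (Ψ t z).1 (curvatureTensor Γ (Ψ t z).1 (Jf Ψ z (0, b) t) (Ψ t z).2 (Ψ t z).2)
      (Jf Ψ z (0, b) t), ?_, ?_, ?_, ?_⟩
  · have h1 : DJf Γ Ψ z (0, b) 0 = b := DJf_zero hΓ h z.1 z.2 b
    have h2 : Jf Ψ z (0, b) 0 = 0 := Jf_zero h z b
    simp only [h1, h2, h.zero]
    simp
  · intro t
    have h1 := hasDerivAt_inner hg hΓ h z (Jf Ψ z (0, b)) (Jf Ψ z (0, b)) _ _ t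
      (hasDerivAt_Jf' hΓ h z (0, b) t) (hasDerivAt_Jf' hΓ h z (0, b) t)
    convert h1 using 1
    rw [hg.symm (Ψ t z).1 (Jf Ψ z (0, b) t) (DJf Γ Ψ z (0, b) t)]
    ring
  · intro t
    have h1 := hasDerivAt_inner hg hΓ h z (DJf Γ Ψ z (0, b)) (Jf Ψ z (0, b)) _ _ t
      (hasDerivAt_DJf hΓ h z (0, b) t) (hasDerivAt_Jf' hΓ h z (0, b) t)
    convert h1 using 1
    rw [map_neg, neg_apply]
    ring
  · intro t
    have h1 := curv_nonpos hg hΓ hK (Ψ t z).1 (Jf Ψ z (0, b) t) (Ψ t z).2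
    linarith

/-- Rauch: the exponential map is expanding. (`scalar_lower` at `t = 1`.) -/
theorem Dex_expand (hg : IsMetric g) (hΓ : IsLeviCivita g Γ) (hK : IsNonpos g Γ)
    (h : IsFlow (spray Γ) Ψ) (x v b : Ev n) :
    g x b b ≤ g (ex Ψ x v) (Dex Ψ x v b) (Dex Ψ x v b) := by
  obtain ⟨p1, h0, h1, h2, h3⟩ := jacobi_data hg hΓ hK h (x, v) b
  have h4 := scalar_lower _ _ _ p1 h1 h2 h3 (by simp [Jf_zero h]) (fun t => metric_nonneg hg _ _)
    (fun t => metric_nonneg hg _ _) (fun t => by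
      have := metric_cs hg (Ψ t (x, v)).1 (DJf Γ Ψ (x, v) (0, b) t) (Jf Ψ (x, v) (0, b) t)
      linarith) 1 zero_le_one
  rw [h0, Jf_eq hΓ h, one_smul, one_smul] at h4
  simpa [ex] using h4

theorem Dex_zero (hΓ : IsLeviCivita g Γ) (h : IsFlow (spray Γ) Ψ) (x : Ev n) :
    Dex Ψ x 0 = ContinuousLinearMap.id ℝ (Ev n) := by
  ext1 b
  have h1 := hasDerivAt_Jf' hΓ h (x, 0) (0, b) 0
  rw [DJf_zero hΓ h, Jf_zero h, map_zero, sub_zero] at h1
  have h2 : Jf Ψ (x, 0) (0, b) = fun s => s • Dex Ψ x 0 b := by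
    funext s
    rw [Jf_eq hΓ h, smul_zero]
  rw [h2] at h1
  have h3 : HasDerivAt (fun s : ℝ => s • Dex Ψ x 0 b) ((1 : ℝ) • Dex Ψ x 0 b) 0 :=
    (hasDerivAt_id (0 : ℝ)).smul_const _
  rw [one_smul] at h3
  exact h3.unique h1

private theorem ex_zero' (hΓ : IsLeviCivita g Γ) (h : IsFlow (spray Γ) Ψ) (x : Ev n) :
    ex Ψ x 0 = x := by
  have h1 := flow_smul hΓ.smooth h 1 0 x (0 : Ev n)
  rw [zero_smul, zero_mul, h.zero, zero_smul] at h1
  unfold ex
  rw [h1]

/-- `|J|/s` is nondecreasing. (`scalar_mono`; for `t = 0` trivial.) -/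
theorem Dex_mono (hg : IsMetric g) (hΓ : IsLeviCivita g Γ) (hK : IsNonpos g Γ)
    (h : IsFlow (spray Γ) Ψ) (x v b : Ev n) (s t : ℝ) (hs : 0 ≤ s) (hst : s ≤ t) :
    g (ex Ψ x (s • v)) (Dex Ψ x (s • v) b) (Dex Ψ x (s • v) b) ≤
      g (ex Ψ x (t • v)) (Dex Ψ x (t • v) b) (Dex Ψ x (t • v) b) := by
  rcases hs.eq_or_lt with rfl | hs'
  · rw [zero_smul, Dex_zero hΓ h, ex_zero' hΓ h]
    exact Dex_expand hg hΓ hK h x (t • v) b
  have ht : 0 < t := hs'.trans_le hst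
  obtain ⟨p1, h0, h1, h2, h3⟩ := jacobi_data hg hΓ hK h (x, v) b
  have h4 := scalar_mono _ _ _ p1 h1 h2 h3 (by simp [Jf_zero h]) (fun t => metric_nonneg hg _ _)
    (fun t => metric_nonneg hg _ _) (fun t => by
      have := metric_cs hg (Ψ t (x, v)).1 (DJf Γ Ψ (x, v) (0, b) t) (Jf Ψ (x, v) (0, b) t)
      linarith) (s / t) t (div_nonneg hs ht.le) ((div_le_one ht).2 hst) ht.le
  rw [div_mul_cancel₀ s ht.ne'] at h4
  simp only [Jf_eq hΓ h] at h4
  have hpos : ∀ r : ℝ, (Ψ r (x, v)).1 = ex Ψ x (r • v) := by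
    intro r
    unfold ex
    rw [flow_smul hΓ.smooth h, mul_one]
  rw [hpos, hpos] at h4
  simp only [map_smul, smul_apply, smul_eq_mul] at h4
  have h5 : (s / t) ^ 2 * (t * (t * g (ex Ψ x (t • v)) (Dex Ψ x (t • v) b) (Dex Ψ x (t • v) b)))
      = s ^ 2 * g (ex Ψ x (t • v)) (Dex Ψ x (t • v) b) (Dex Ψ x (t • v) b) := by
    field_simp
  rw [h5] at h4
  have h6 : 0 < s ^ 2 := by positivity
  nlinarith [h4]

/-- Gauss lemma: differentiate the conservation of speed `g(γ')(γ')(1) = g x v v` in the direction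
`(0, b)`: `g(DJ, γ')(t) = g x b v` for all `t`; and `g(J, γ')' = g(DJ, γ')` so `g(J,γ')(1) = g x b v`. -/
theorem Dex_gauss (hg : IsMetric g) (hΓ : IsLeviCivita g Γ)
    (h : IsFlow (spray Γ) Ψ) (x v b : Ev n) :
    g (ex Ψ x v) (ve Ψ x v) (Dex Ψ x v b) = g x v b := by
  have hS : ContDiff ℝ 1 (spray Γ) := (spray_contDiff hΓ.smooth).of_le (by exact_mod_cast le_top)
  -- step 1: `g (DJ, γ') = g x b v`
  have key : ∀ t, g (Ψ t (x, v)).1 (DJf Γ Ψ (x, v) (0, b) t) (Ψ t (x, v)).2 = g x b v := by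
    intro t
    have hin : HasDerivAt (fun r : ℝ => ((x, v + r • b) : Ev n × Ev n)) (0, b) 0 := by
      have h1 : HasDerivAt (fun r : ℝ => v + r • b) b 0 := by
        have := ((hasDerivAt_id (0 : ℝ)).smul_const b).const_add v
        simpa using this
      exact (hasDerivAt_const (0 : ℝ) x).prodMk h1
    have hz0 : ((x, v + (0 : ℝ) • b) : Ev n × Ev n) = (x, v) := by simp
    have hd : HasFDerivAt (Ψ t) (fderiv ℝ (Ψ t) (x, v)) (x, v + (0 : ℝ) • b) := by
      rw [hz0]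
      exact (h.differentiableAt hS (x, v) t).hasFDerivAt
    have hΨ : HasDerivAt (fun r : ℝ => Ψ t (x, v + r • b)) (fderiv ℝ (Ψ t) (x, v) (0, b)) 0 :=
      HasFDerivAt.comp_hasDerivAt (0 : ℝ) hd hin
    have hΨ1 : HasDerivAt (fun r : ℝ => (Ψ t (x, v + r • b)).1)
        (Jf Ψ (x, v) (0, b) t) 0 := hΨ.fst
    have hΨ2 : HasDerivAt (fun r : ℝ => (Ψ t (x, v + r • b)).2)
        (fderiv ℝ (Ψ t) (x, v) (0, b)).2 0 := hΨ.snd
    have hgd : HasFDerivAt g (fderiv ℝ g (Ψ t (x, v)).1) (Ψ t (x, v + (0 : ℝ) • b)).1 := by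
      rw [hz0]
      exact (hg.smooth.differentiable (by simp) _).hasFDerivAt
    have hg1 : HasDerivAt (fun r : ℝ => g (Ψ t (x, v + r • b)).1)
        (fderiv ℝ g (Ψ t (x, v)).1 (Jf Ψ (x, v) (0, b) t)) 0 := by
      exact HasFDerivAt.comp_hasDerivAt (E := Ev n →L[ℝ] Ev n →L[ℝ] ℝ) (F := Ev n)
        (f := fun r : ℝ => (Ψ t (x, v + r • b)).1) (l := g) (0 : ℝ) hgd hΨ1
    have hg2 := (hg1.clm_apply hΨ2).clm_apply hΨ2
    have hR : HasDerivAt (fun r : ℝ => g x (v + r • b) (v + r • b)) (2 * g x b v) 0 := by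
      have h1 : HasDerivAt (fun r : ℝ => v + r • b) b 0 := by
        have := ((hasDerivAt_id (0 : ℝ)).smul_const b).const_add v
        simpa using this
      have h2 := ((hasDerivAt_const (0 : ℝ) (g x)).clm_apply h1).clm_apply h1
      refine HasDerivAt.congr_deriv h2 ?_
      simp only [zero_apply, zero_add, zero_smul, add_zero]
      rw [hg.symm x v b]
      ring
    have heq : (fun r : ℝ => g (Ψ t (x, v + r • b)).1 (Ψ t (x, v + r • b)).2
        (Ψ t (x, v + r • b)).2) = fun r : ℝ => g x (v + r • b) (v + r • b) := by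
      funext r
      exact flow_speed hg hΓ h t (x, v + r • b)
    rw [heq] at hg2
    have h3 := hg2.unique hR
    simp only [add_apply, hz0] at h3
    rw [hΓ.metric] at h3
    have s1 := hg.symm (Ψ t (x, v)).1 (Ψ t (x, v)).2
      (Γ (Ψ t (x, v)).1 (Jf Ψ (x, v) (0, b) t) (Ψ t (x, v)).2)
    have s2 := hg.symm (Ψ t (x, v)).1 (Ψ t (x, v)).2 (fderiv ℝ (Ψ t) (x, v) (0, b)).2
    have s3 := hΓ.torsion_free (Ψ t (x, v)).1 (Jf Ψ (x, v) (0, b) t) (Ψ t (x, v)).2
    rw [s1, s2, s3] at h3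
    unfold DJf
    rw [map_add, add_apply]
    linarith
  -- step 2
  have h2 : ∀ t, HasDerivAt (fun s => g (Ψ s (x, v)).1 (Jf Ψ (x, v) (0, b) s) (Ψ s (x, v)).2)
      (g x b v) t := by
    intro t
    have h3 : HasDerivAt (fun s => (Ψ s (x, v)).2)
        (0 - Γ (Ψ t (x, v)).1 (Ψ t (x, v)).2 (Ψ t (x, v)).2) t := by
      rw [zero_sub]
      exact flow_acc h t (x, v)
    have h4 := hasDerivAt_inner hg hΓ h (x, v) (Jf Ψ (x, v) (0, b)) (fun s => (Ψ s (x, v)).2)
      _ _ t (hasDerivAt_Jf' hΓ h (x, v) (0, b) t) h3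
    rw [map_zero, add_zero, key t] at h4
    exact h4
  have h5 : ∀ t, HasDerivAt (fun s => g (Ψ s (x, v)).1 (Jf Ψ (x, v) (0, b) s) (Ψ s (x, v)).2
      - s * g x b v) 0 t := by
    intro t
    have h8 := HasDerivAt.fun_sub (h2 t) ((hasDerivAt_id t).mul_const (g x b v))
    simpa using h8
  have h6 := is_const_of_deriv_eq_zero (fun t => (h5 t).differentiableAt)
    (fun t => (h5 t).deriv) 1 0
  simp only [Jf_zero h, map_zero, zero_apply, zero_mul, sub_zero, one_mul] at h6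
  rw [Jf_eq hΓ h, one_smul, one_smul] at h6
  have h7 : g (Ψ 1 (x, v)).1 (Dex Ψ x v b) (Ψ 1 (x, v)).2 = g x b v := by linarith
  unfold ex ve
  rw [hg.symm, h7, hg.symm]

end P219G
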