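import Mathlib.Analysis.Calculus.InverseFunctionTheorem.ContDiff
import Vale.Agent.Lib.P219.Geo.HadB
import Vale.Agent.Lib.P219.Geo.JacB

/-!
# P219: the inverse exponential map
-/

open scoped ContDiff
open Vale.Agent.Lib.P219 (Ev)

namespace P219G

variable {n : ℕ} {g : Ev n → Ev n →L[ℝ] Ev n →L[ℝ] ℝ}
  {Γ : Ev n → Ev n →L[ℝ] Ev n →L[ℝ] Ev n} {Ψ : ℝ → Ev n × Ev n → Ev n × Ev n}

/-- The inverse exponential map `lg x y = exp_x^{-1}(y)`. -/
noncomputable def lg (Ψ : ℝ → Ev n × Ev n → Ev n × Ev n) (x y : Ev n) : Ev n :=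
  Function.invFun (fun v => ex Ψ x v) y

/-- On a compact set the metric is comparable with the Euclidean norm. -/
theorem metric_compact (hg : IsMetric g) (K : Set (Ev n)) (hK : IsCompact K) :
    ∃ c > 0, ∃ C > 0, ∀ p ∈ K, ∀ u, c * ‖u‖ ^ 2 ≤ g p u u ∧ g p u u ≤ C * ‖u‖ ^ 2 := by
  have hcont : Continuous fun q : Ev n × Ev n => g q.1 q.2 q.2 :=
    ((hg.smooth.continuous.comp continuous_fst).clm_apply continuous_snd).clm_apply continuous_snd
  have hS : IsCompact (K ×ˢ Metric.sphere (0 : Ev n) 1) := hK.prod (isCompact_sphere 0 1)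
  have hmem : ∀ p ∈ K, ∀ u : Ev n, u ≠ 0 → (p, ‖u‖⁻¹ • u) ∈ (K ×ˢ Metric.sphere (0 : Ev n) 1) := by
    intro p hp u hu
    refine ⟨hp, ?_⟩
    have : ‖u‖ ≠ 0 := norm_ne_zero_iff.mpr hu
    simp [norm_smul, this]
  rcases (K ×ˢ Metric.sphere (0 : Ev n) 1).eq_empty_or_nonempty with he | hne
  · refine ⟨1, one_pos, 1, one_pos, fun p hp u => ?_⟩
    have hu : u = 0 := by
      by_contra hu
      have := hmem p hp u hu
      rw [he] at this
      exact this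
    subst hu
    simp
  · obtain ⟨q0, hq0, hmin⟩ := hS.exists_isMinOn hne hcont.continuousOn
    obtain ⟨q1, hq1, hmax⟩ := hS.exists_isMaxOn hne hcont.continuousOn
    have hs0 : q0.2 ≠ 0 := by
      intro h0
      have := hq0.2
      rw [mem_sphere_zero_iff_norm, h0, norm_zero] at this
      exact zero_ne_one this
    have hc : 0 < g q0.1 q0.2 q0.2 := hg.pos q0.1 q0.2 hs0
    have hC : 0 < g q1.1 q1.2 q1.2 := lt_of_lt_of_le hc (hmax hq0)
    refine ⟨g q0.1 q0.2 q0.2, hc, g q1.1 q1.2 q1.2, hC, fun p hp u => ?_⟩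
    rcases eq_or_ne u 0 with hu | hu
    · subst hu
      simp
    · have hn : ‖u‖ ≠ 0 := norm_ne_zero_iff.mpr hu
      have hsc : g p u u = g p (‖u‖⁻¹ • u) (‖u‖⁻¹ • u) * ‖u‖ ^ 2 := by
        simp only [map_smul, smul_apply, smul_eq_mul]
        field_simp
      have h1 := hmin (hmem p hp u hu)
      have h2 := hmax (hmem p hp u hu)
      simp only [Set.mem_ofPred_eq] at h1 h2
      rw [hsc]
      exact ⟨mul_le_mul_of_nonneg_right h1 (sq_nonneg _),
        mul_le_mul_of_nonneg_right h2 (sq_nonneg _)⟩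

private theorem ex_contDiff (hΓ : IsLeviCivita g Γ) (h : IsFlow (spray Γ) Ψ) :
    ContDiff ℝ ∞ (fun p : Ev n × Ev n => ex Ψ p.1 p.2) := by
  have h1 : ContDiff ℝ ∞ (fun p : ℝ × (Ev n × Ev n) => Ψ p.1 p.2) :=
    IsFlow.contDiff (spray_contDiff hΓ.smooth) h
  have h2 : ContDiff ℝ ∞ (fun p : Ev n × Ev n => ((1 : ℝ), p)) :=
    contDiff_const.prodMk contDiff_id
  exact contDiff_fst.comp (h1.comp h2)

private theorem ex_contDiff_right (hΓ : IsLeviCivita g Γ) (h : IsFlow (spray Γ) Ψ) (x : Ev n) :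
    ContDiff ℝ ∞ (fun v : Ev n => ex Ψ x v) :=
  (ex_contDiff hΓ h).comp (contDiff_const.prodMk contDiff_id)

/-- Cartan-Hadamard: `ex x` is bijective (`expanding_bijective`, `Dex_expand`, `metric_compact`; `ex x` is
smooth by `IsFlow.contDiff`). -/
theorem ex_bijective (hg : IsMetric g) (hΓ : IsLeviCivita g Γ) (hK : IsNonpos g Γ)
    (h : IsFlow (spray Γ) Ψ) (x : Ev n) : Function.Bijective (fun v => ex Ψ x v) := by
  refine expanding_bijective _ ((ex_contDiff_right hΓ h x).of_le (by exact_mod_cast le_top)) ?_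
  intro K hKc
  obtain ⟨c0, hc0, _, _, H0⟩ := metric_compact hg {x} isCompact_singleton
  obtain ⟨_, _, C, hC, H1⟩ := metric_compact hg K hKc
  refine ⟨Real.sqrt (c0 / C), Real.sqrt_pos.mpr (div_pos hc0 hC), fun v hv b => ?_⟩
  have h1 := (H0 x rfl b).1
  have h2 := Dex_expand hg hΓ hK h x v b
  have h3 := (H1 _ hv (Dex Ψ x v b)).2
  have h4 : c0 * ‖b‖ ^ 2 ≤ C * ‖Dex Ψ x v b‖ ^ 2 := h1.trans (h2.trans h3)
  have h5 : (c0 / C) * ‖b‖ ^ 2 ≤ ‖Dex Ψ x v b‖ ^ 2 := by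
    rw [div_mul_eq_mul_div, div_le_iff₀ hC]
    linarith
  have h6 : Real.sqrt (c0 / C) * ‖b‖ ≤ ‖Dex Ψ x v b‖ := by
    apply le_of_sq_le_sq _ (norm_nonneg _)
    rw [mul_pow, Real.sq_sqrt (div_pos hc0 hC).le]
    exact h5
  exact h6

theorem ex_lg (hg : IsMetric g) (hΓ : IsLeviCivita g Γ) (hK : IsNonpos g Γ)
    (h : IsFlow (spray Γ) Ψ) (x y : Ev n) : ex Ψ x (lg Ψ x y) = y :=
  Function.rightInverse_invFun (ex_bijective hg hΓ hK h x).2 y

theorem lg_ex (hg : IsMetric g) (hΓ : IsLeviCivita g Γ) (hK : IsNonpos g Γ)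
    (h : IsFlow (spray Γ) Ψ) (x v : Ev n) : lg Ψ x (ex Ψ x v) = v :=
  Function.leftInverse_invFun (ex_bijective hg hΓ hK h x).1 v

private theorem Dex_injective (hg : IsMetric g) (hΓ : IsLeviCivita g Γ) (hK : IsNonpos g Γ)
    (h : IsFlow (spray Γ) Ψ) (x v b : Ev n) (hb : Dex Ψ x v b = 0) : b = 0 := by
  by_contra hne
  have h1 := Dex_expand hg hΓ hK h x v b
  rw [hb] at h1
  have h2 := hg.pos x b hne
  simp only [map_zero] at h1
  linarith

/-- Joint smoothness: `(x, v) ↦ (x, ex x v)` is a smooth bijection of `ℝ^n × ℝ^n` with invertible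
derivative `(a, b) ↦ (a, D_x ex a + Dex b)` (`Dex` is injective by `Dex_expand`), so its inverse
`(x, y) ↦ (x, lg x y)` is smooth: near `(x0, y0)` it coincides with the local inverse of the inverse
function theorem (`ContDiffAt.to_localInverse`), by injectivity. -/
theorem lg_contDiff (hg : IsMetric g) (hΓ : IsLeviCivita g Γ) (hK : IsNonpos g Γ)
    (h : IsFlow (spray Γ) Ψ) : ContDiff ℝ ∞ (fun p : Ev n × Ev n => lg Ψ p.1 p.2) := by
  have hex := ex_contDiff hΓ h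
  set F : Ev n × Ev n → Ev n × Ev n := fun p => (p.1, ex Ψ p.1 p.2) with hF
  have hFs : ContDiff ℝ ∞ F := contDiff_fst.prodMk hex
  have hFinj : Function.Injective F := by
    rintro ⟨x, v⟩ ⟨x', v'⟩ hxy
    simp only [hF, Prod.mk.injEq] at hxy
    obtain ⟨h1, h2⟩ := hxy
    subst h1
    have := (ex_bijective hg hΓ hK h x).1 h2
    rw [this]
  have hFG : ∀ q : Ev n × Ev n, F (q.1, lg Ψ q.1 q.2) = q := by
    rintro ⟨x, y⟩
    simp only [hF]
    rw [ex_lg hg hΓ hK h x y]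
  rw [contDiff_iff_contDiffAt]
  rintro ⟨x0, y0⟩
  set p0 : Ev n × Ev n := (x0, lg Ψ x0 y0) with hp0
  have hFp0 : F p0 = (x0, y0) := hFG (x0, y0)
  have hone : (∞ : WithTop ℕ∞) ≠ 0 := by simp
  have hderiv : HasFDerivAt F (fderiv ℝ F p0) p0 :=
    (hFs.differentiable hone p0).hasFDerivAt
  have hexd : DifferentiableAt ℝ (fun p : Ev n × Ev n => ex Ψ p.1 p.2) p0 :=
    hex.differentiable hone p0
  have hform : ∀ a b : Ev n, fderiv ℝ F p0 (a, b) =
      (a, fderiv ℝ (fun p : Ev n × Ev n => ex Ψ p.1 p.2) p0 (a, b)) := by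
    intro a b
    have h1 : HasFDerivAt F ((ContinuousLinearMap.fst ℝ (Ev n) (Ev n)).prod
        (fderiv ℝ (fun p : Ev n × Ev n => ex Ψ p.1 p.2) p0)) p0 :=
      (hasFDerivAt_fst).prodMk hexd.hasFDerivAt
    rw [h1.fderiv]
    rfl
  have hpart : ∀ b : Ev n, fderiv ℝ (fun p : Ev n × Ev n => ex Ψ p.1 p.2) p0 (0, b) =
      Dex Ψ x0 (lg Ψ x0 y0) b := by
    intro b
    have h1 : HasFDerivAt (fun v : Ev n => ((x0, v) : Ev n × Ev n))
        (ContinuousLinearMap.inr ℝ (Ev n) (Ev n)) (lg Ψ x0 y0) :=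
      hasFDerivAt_prodMk_right x0 (lg Ψ x0 y0)
    have h2 : HasFDerivAt (fun v : Ev n => ex Ψ x0 v)
        ((fderiv ℝ (fun p : Ev n × Ev n => ex Ψ p.1 p.2) p0).comp
          (ContinuousLinearMap.inr ℝ (Ev n) (Ev n))) (lg Ψ x0 y0) :=
      HasFDerivAt.comp (g := fun p : Ev n × Ev n => ex Ψ p.1 p.2) (lg Ψ x0 y0)
        hexd.hasFDerivAt h1
    have h3 : Dex Ψ x0 (lg Ψ x0 y0) = ((fderiv ℝ (fun p : Ev n × Ev n => ex Ψ p.1 p.2) p0).comp
          (ContinuousLinearMap.inr ℝ (Ev n) (Ev n))) := h2.fderiv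
    rw [h3]
    simp
  have hinj : Function.Injective (fderiv ℝ F p0 : Ev n × Ev n →ₗ[ℝ] Ev n × Ev n) := by
    rw [← LinearMap.ker_eq_bot, LinearMap.ker_eq_bot']
    rintro ⟨a, b⟩ hab
    have hab' : fderiv ℝ F p0 (a, b) = 0 := hab
    rw [hform a b] at hab'
    have ha : a = 0 := congrArg Prod.fst hab'
    subst ha
    have hb0 : fderiv ℝ (fun p : Ev n × Ev n => ex Ψ p.1 p.2) p0 (0, b) = 0 :=
      congrArg Prod.snd hab'
    rw [hpart b] at hb0
    have hb : b = 0 := Dex_injective hg hΓ hK h x0 (lg Ψ x0 y0) b hb0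
    rw [hb]
    rfl
  set e : (Ev n × Ev n) ≃L[ℝ] (Ev n × Ev n) :=
    (LinearEquiv.ofInjectiveEndo (fderiv ℝ F p0 : Ev n × Ev n →ₗ[ℝ] Ev n × Ev n)
      hinj).toContinuousLinearEquiv with he
  have hecoe : (e : Ev n × Ev n →L[ℝ] Ev n × Ev n) = fderiv ℝ F p0 := by
    refine ContinuousLinearMap.ext fun p => ?_
    rfl
  have hderiv' : HasFDerivAt F (e : Ev n × Ev n →L[ℝ] Ev n × Ev n) p0 := by
    rw [hecoe]
    exact hderiv
  have hloc : ContDiffAt ℝ ∞ (hFs.contDiffAt.localInverse hderiv' hone) (F p0) :=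
    hFs.contDiffAt.to_localInverse hderiv' hone
  have hstrict : HasStrictFDerivAt F (e : Ev n × Ev n →L[ℝ] Ev n × Ev n) p0 :=
    hFs.contDiffAt.hasStrictFDerivAt' hderiv' hone
  have hev : ∀ᶠ q in nhds (F p0), F (hFs.contDiffAt.localInverse hderiv' hone q) = q :=
    hstrict.eventually_right_inverse
  have heq : (fun q : Ev n × Ev n => lg Ψ q.1 q.2) =ᶠ[nhds (x0, y0)]
      (fun q => (hFs.contDiffAt.localInverse hderiv' hone q).2) := by
    rw [← hFp0]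
    filter_upwards [hev] with q hq
    have h1 : F (q.1, lg Ψ q.1 q.2) = F (hFs.contDiffAt.localInverse hderiv' hone q) := by
      rw [hFG q, hq]
    have h2 := hFinj h1
    rw [← h2]
  rw [hFp0] at hloc
  exact (hloc.snd).congr_of_eventuallyEq heq

/-- The end velocity of the geodesic from `x` to `y` (`flow_back`). -/
theorem ve_lg (hg : IsMetric g) (hΓ : IsLeviCivita g Γ) (hK : IsNonpos g Γ)
    (h : IsFlow (spray Γ) Ψ) (x y : Ev n) : ve Ψ x (lg Ψ x y) = - lg Ψ y x := by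
  have h1 := flow_back hΓ.smooth h x (lg Ψ x y)
  rw [ex_lg hg hΓ hK h x y] at h1
  have h2 : ex Ψ y (- ve Ψ x (lg Ψ x y)) = x := congrArg Prod.fst h1
  have h3 := lg_ex hg hΓ hK h y (- ve Ψ x (lg Ψ x y))
  rw [h2] at h3
  rw [h3, neg_neg]

/-- Symmetry of the squared distance (`flow_speed`, `ve_lg`). -/
theorem dist_symm (hg : IsMetric g) (hΓ : IsLeviCivita g Γ) (hK : IsNonpos g Γ)
    (h : IsFlow (spray Γ) Ψ) (x y : Ev n) :
    g x (lg Ψ x y) (lg Ψ x y) = g y (lg Ψ y x) (lg Ψ y x) := by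
  have h1 := flow_speed hg hΓ h 1 (x, lg Ψ x y)
  have h2 : (Ψ 1 (x, lg Ψ x y)).1 = y := ex_lg hg hΓ hK h x y
  have h3 : (Ψ 1 (x, lg Ψ x y)).2 = - lg Ψ y x := ve_lg hg hΓ hK h x y
  rw [h2, h3] at h1
  simp only [map_neg, neg_apply, neg_neg] at h1
  exact h1.symm

/-- The derivative of `lg x` is the inverse of `Dex`. -/
theorem Dex_fderiv_lg (hg : IsMetric g) (hΓ : IsLeviCivita g Γ) (hK : IsNonpos g Γ)
    (h : IsFlow (spray Γ) Ψ) (x y η : Ev n) :
    Dex Ψ x (lg Ψ x y) (fderiv ℝ (fun y' => lg Ψ x y') y η) = η := by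
  have hone : (∞ : WithTop ℕ∞) ≠ 0 := by simp
  have h1 : HasFDerivAt (fun v : Ev n => ex Ψ x v) (Dex Ψ x (lg Ψ x y)) (lg Ψ x y) :=
    ((ex_contDiff_right hΓ h x).differentiable hone _).hasFDerivAt
  have hlg : ContDiff ℝ ∞ (fun y' => lg Ψ x y') :=
    (lg_contDiff hg hΓ hK h).comp (contDiff_const.prodMk contDiff_id)
  have h2 : HasFDerivAt (fun y' => lg Ψ x y') (fderiv ℝ (fun y' => lg Ψ x y') y) y :=
    (hlg.differentiable hone y).hasFDerivAt
  have h3 : HasFDerivAt (fun y' => ex Ψ x (lg Ψ x y'))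
      ((Dex Ψ x (lg Ψ x y)).comp (fderiv ℝ (fun y' => lg Ψ x y') y)) y :=
    HasFDerivAt.comp y h1 h2
  have h4 : (fun y' => ex Ψ x (lg Ψ x y')) = fun y' => y' := by
    funext y'
    exact ex_lg hg hΓ hK h x y'
  rw [h4] at h3
  have h5 := h3.unique (hasFDerivAt_id y)
  have h6 := congrArg (fun L : Ev n →L[ℝ] Ev n => L η) h5
  simpa using h6

end P219G
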