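import Mathlib.Analysis.Calculus.FDeriv.Symmetric
import Mathlib.LinearAlgebra.FreeModule.PID
import Vale.Agent.Lib.P219.Geo.Lg

/-!
# P219: the gradient of the squared distance, and the symmetry of the Jacobian of the exponential map
-/

open scoped ContDiff
open Vale.Agent.Lib.P219 (Ev)

namespace P219G

variable {n : ℕ} {g : Ev n → Ev n →L[ℝ] Ev n →L[ℝ] ℝ}
  {Γ : Ev n → Ev n →L[ℝ] Ev n →L[ℝ] Ev n} {Ψ : ℝ → Ev n × Ev n → Ev n × Ev n}

/-- Half the squared distance. -/
noncomputable def hd (g : Ev n → Ev n →L[ℝ] Ev n →L[ℝ] ℝ) (Ψ : ℝ → Ev n × Ev n → Ev n × Ev n)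
    (x y : Ev n) : ℝ := g x (lg Ψ x y) (lg Ψ x y) / 2

private theorem lg_differentiableAt (hg : IsMetric g) (hΓ : IsLeviCivita g Γ) (hK : IsNonpos g Γ)
    (h : IsFlow (spray Γ) Ψ) (x y : Ev n) : DifferentiableAt ℝ (fun y' => lg Ψ x y') y := by
  have h1 : ContDiff ℝ ∞ (fun y' : Ev n => lg Ψ x y') :=
    (lg_contDiff hg hΓ hK h).comp (contDiff_const.prodMk contDiff_id)
  exact h1.differentiable (by simp) y

/-- Gradient of the squared distance in the second variable: by the Gauss lemma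
`g x (lg x y) b = g y (ve) (Dex b)` with `b = D_y lg η`, `Dex b = η`, `ve = - lg y x`. -/
theorem hasFDerivAt_hd (hg : IsMetric g) (hΓ : IsLeviCivita g Γ) (hK : IsNonpos g Γ)
    (h : IsFlow (spray Γ) Ψ) (x y : Ev n) :
    HasFDerivAt (fun y' => hd g Ψ x y') (-(g y (lg Ψ y x))) y := by
  have hL := (lg_differentiableAt hg hΓ hK h x y).hasFDerivAt
  set D := fderiv ℝ (fun y' => lg Ψ x y') y with hD
  have h1 : HasFDerivAt (fun y' => g x (lg Ψ x y')) ((g x).comp D) y :=
    (g x).hasFDerivAt.comp y hL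
  have h2 := (h1.clm_apply hL).mul_const (1 / 2 : ℝ)
  have h3 : (fun y' => hd g Ψ x y') = fun y' => g x (lg Ψ x y') (lg Ψ x y') * (1 / 2) := by
    funext y'; unfold hd; ring
  rw [h3]
  refine h2.congr_fderiv ?_
  ext η
  have e1 := Dex_gauss hg hΓ h x (lg Ψ x y) (D η)
  rw [Dex_fderiv_lg hg hΓ hK h x y η, ex_lg hg hΓ hK h x y, ve_lg hg hΓ hK h x y] at e1
  simp only [smul_apply, add_apply,
    ContinuousLinearMap.comp_apply, ContinuousLinearMap.flip_apply, neg_apply,
    smul_eq_mul]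
  rw [map_neg, neg_apply] at e1
  rw [hg.symm x (D η) (lg Ψ x y), e1]
  ring

private theorem hd_symm (hg : IsMetric g) (hΓ : IsLeviCivita g Γ) (hK : IsNonpos g Γ)
    (h : IsFlow (spray Γ) Ψ) (x y : Ev n) : hd g Ψ x y = hd g Ψ y x := by
  unfold hd; rw [dist_symm hg hΓ hK h x y]

private theorem hd_contDiff (hg : IsMetric g) (hΓ : IsLeviCivita g Γ) (hK : IsNonpos g Γ)
    (h : IsFlow (spray Γ) Ψ) : ContDiff ℝ ∞ (fun p : Ev n × Ev n => hd g Ψ p.1 p.2) := by
  have h1 := lg_contDiff hg hΓ hK h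
  exact (((hg.smooth.comp contDiff_fst).clm_apply h1).clm_apply h1).div_const 2

/-- Symmetry of the mixed second derivatives of `hd` (a smooth function on `ℝ^n × ℝ^n`, symmetric by
`dist_symm`): the derivative in `y` is `-g_y(lg y x, ·)`, the derivative in `x` is `-g_x(lg x y, ·)`;
differentiate the first in `x` in the direction `ξ` and the second in `y` in the direction `η`
(`second_derivative_symmetric` applied to `p ↦ hd p.1 p.2` and the vectors `(ξ, 0)`, `(0, η)`). -/
theorem fderiv_lg_symm (hg : IsMetric g) (hΓ : IsLeviCivita g Γ) (hK : IsNonpos g Γ)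
    (h : IsFlow (spray Γ) Ψ) (x y ξ η : Ev n) :
    g x (fderiv ℝ (fun y' => lg Ψ x y') y η) ξ = g y (fderiv ℝ (fun x' => lg Ψ y x') x ξ) η := by
  set F : Ev n × Ev n → ℝ := fun p => hd g Ψ p.1 p.2 with hF
  have hFs : ContDiff ℝ ∞ F := hd_contDiff hg hΓ hK h
  have hFd : ∀ p, HasFDerivAt F (fderiv ℝ F p) p := fun p =>
    (hFs.differentiable (by simp) p).hasFDerivAt
  have hF2s : ContDiff ℝ ∞ (fderiv ℝ F) := hFs.fderiv_right (by simp)
  have hF2 : ∀ p, HasFDerivAt (fderiv ℝ F) (fderiv ℝ (fderiv ℝ F) p) p := fun p =>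
    (hF2s.differentiable (by simp) p).hasFDerivAt
  -- partial derivatives
  have hy : ∀ x y η, fderiv ℝ F (x, y) (0, η) = -(g y (lg Ψ y x) η) := by
    intro x y η
    have h1 : HasFDerivAt (fun y' : Ev n => (x, y')) (ContinuousLinearMap.inr ℝ (Ev n) (Ev n)) y :=
      hasFDerivAt_prodMk_right x y
    have h2 := (hFd (x, y)).comp y h1
    have h3 := hasFDerivAt_hd hg hΓ hK h x y
    have h4 := h2.unique h3
    have h5 := congrArg (fun T => T η) h4
    simpa using h5
  have hx : ∀ x y ξ, fderiv ℝ F (x, y) (ξ, 0) = -(g x (lg Ψ x y) ξ) := by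
    intro x y ξ
    have h1 : HasFDerivAt (fun x' : Ev n => (x', y)) (ContinuousLinearMap.inl ℝ (Ev n) (Ev n)) x :=
      hasFDerivAt_prodMk_left x y
    have h2 := (hFd (x, y)).comp x h1
    have h3 := hasFDerivAt_hd hg hΓ hK h y x
    have h3' : HasFDerivAt (F ∘ fun x' : Ev n => (x', y)) (-(g x (lg Ψ x y))) x := by
      refine h3.congr_of_eventuallyEq (Filter.Eventually.of_forall fun x' => ?_)
      exact hd_symm hg hΓ hK h x' y
    have h4 := h2.unique h3'
    have h5 := congrArg (fun T => T ξ) h4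
    simpa using h5
  -- second derivatives
  have hsymm := second_derivative_symmetric hFd (hF2 (x, y)) (ξ, 0) (0, η)
  have e1 : fderiv ℝ (fderiv ℝ F) (x, y) (ξ, 0) (0, η) =
      -(g y (fderiv ℝ (fun x' => lg Ψ y x') x ξ) η) := by
    have h1 : HasFDerivAt (fun x' : Ev n => (x', y)) (ContinuousLinearMap.inl ℝ (Ev n) (Ev n)) x :=
      hasFDerivAt_prodMk_left x y
    have h2 := (hF2 (x, y)).comp x h1
    have h3 := h2.clm_apply (hasFDerivAt_const ((0 : Ev n), η) x)
    have h4 : HasFDerivAt (fun x' => -(g y (lg Ψ y x') η))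
        (-(((g y).comp (fderiv ℝ (fun x' => lg Ψ y x') x)).flip η)) x := by
      have hL := (lg_differentiableAt hg hΓ hK h y x).hasFDerivAt
      have a1 : HasFDerivAt (fun x' => g y (lg Ψ y x'))
          ((g y).comp (fderiv ℝ (fun x' => lg Ψ y x') x)) x := (g y).hasFDerivAt.comp x hL
      have a2 := (a1.clm_apply (hasFDerivAt_const η x)).neg
      refine a2.congr_fderiv ?_
      ext ζ; simp
    have h5 : HasFDerivAt (fun x' => -(g y (lg Ψ y x') η)) _ x :=
      h3.congr_of_eventuallyEq (Filter.Eventually.of_forall fun x' => (hy x' y η).symm)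
    have h6 := h5.unique h4
    have h7 := congrArg (fun T => T ξ) h6
    simpa using h7
  have e2 : fderiv ℝ (fderiv ℝ F) (x, y) (0, η) (ξ, 0) =
      -(g x (fderiv ℝ (fun y' => lg Ψ x y') y η) ξ) := by
    have h1 : HasFDerivAt (fun y' : Ev n => (x, y')) (ContinuousLinearMap.inr ℝ (Ev n) (Ev n)) y :=
      hasFDerivAt_prodMk_right x y
    have h2 := (hF2 (x, y)).comp y h1
    have h3 := h2.clm_apply (hasFDerivAt_const (ξ, (0 : Ev n)) y)
    have h4 : HasFDerivAt (fun y' => -(g x (lg Ψ x y') ξ))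
        (-(((g x).comp (fderiv ℝ (fun y' => lg Ψ x y') y)).flip ξ)) y := by
      have hL := (lg_differentiableAt hg hΓ hK h x y).hasFDerivAt
      have a1 : HasFDerivAt (fun y' => g x (lg Ψ x y'))
          ((g x).comp (fderiv ℝ (fun y' => lg Ψ x y') y)) y := (g x).hasFDerivAt.comp y hL
      have a2 := (a1.clm_apply (hasFDerivAt_const ξ y)).neg
      refine a2.congr_fderiv ?_
      ext ζ; simp
    have h5 : HasFDerivAt (fun y' => -(g x (lg Ψ x y') ξ)) _ y :=
      h3.congr_of_eventuallyEq (Filter.Eventually.of_forall fun y' => (hx x y' ξ).symm)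
    have h6 := h5.unique h4
    have h7 := congrArg (fun T => T η) h6
    simpa using h7
  rw [e1, e2] at hsymm
  linarith

private theorem fderiv_lg_Dex (hg : IsMetric g) (hΓ : IsLeviCivita g Γ) (hK : IsNonpos g Γ)
    (h : IsFlow (spray Γ) Ψ) (x y ξ : Ev n) :
    fderiv ℝ (fun y' => lg Ψ x y') y (Dex Ψ x (lg Ψ x y) ξ) = ξ := by
  have h1 : (Dex Ψ x (lg Ψ x y)).toLinearMap * (fderiv ℝ (fun y' => lg Ψ x y') y).toLinearMap
      = 1 := by
    ext η : 1
    exact Dex_fderiv_lg hg hΓ hK h x y η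
  have h2 := mul_eq_one_comm.mp h1
  exact congrArg (fun T => T ξ) h2

/-- The same for the derivative of the exponential map: with `y = ex x v` and `v' = - ve x v`
(so `ex y v' = x`), `g_y (Dex x v ξ) η = g_x ξ (Dex y v' η)`: `Dex` and `Dex` backwards are adjoint to
each other (invert `fderiv_lg_symm` with `Dex_fderiv_lg`). -/
theorem Dex_adjoint (hg : IsMetric g) (hΓ : IsLeviCivita g Γ) (hK : IsNonpos g Γ)
    (h : IsFlow (spray Γ) Ψ) (x v ξ η : Ev n) :
    g (ex Ψ x v) (Dex Ψ x v ξ) η = g x ξ (Dex Ψ (ex Ψ x v) (-(ve Ψ x v)) η) := by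
  set y := ex Ψ x v with hy
  have hv : lg Ψ x y = v := lg_ex hg hΓ hK h x v
  have hv' : lg Ψ y x = -(ve Ψ x v) := by
    have := ve_lg hg hΓ hK h x y
    rw [hv] at this
    rw [this, neg_neg]
  have h1 := fderiv_lg_Dex hg hΓ hK h x y ξ
  have h2 := fderiv_lg_Dex hg hΓ hK h y x η
  rw [hv] at h1
  rw [hv'] at h2
  have h3 := fderiv_lg_symm hg hΓ hK h x y (Dex Ψ y (-(ve Ψ x v)) η) (Dex Ψ x v ξ)
  rw [h1, h2] at h3
  rw [hg.symm y, h3]

end P219G
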